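import Vale.Agent.P147.Semi.Defs
import Vale.Agent.P147.Speed.Reduce

/-!
P147, a nonzero velocity forces the zero-one law: the expected number of cuts. A first piece
glued to an independent future avoiding it is a path of the walk with a cut at the gluing time.
-/

open MeasureTheory Filter Finset
open scoped ENNReal Topology

namespace Vale.Agent.P147.Semi

open Vale.Agent.P147.Cond Vale.Agent.P147.Dir Vale.Agent.P147.Dir.Blocks Vale.Agent.P147.Glue

variable {d k : ℕ} [NeZero k] (v : Fin k → Site d) (μ : Measure (Row k)) [IsProbabilityMeasure μ]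
  (l : Fin d → ℤ)

/-- The height reaches `M` and the walk escapes downwards. -/
def Far (M : ℕ) : Set (ℕ → Fin k) :=
  up v (-lvl l) ∩ {t | ∃ i, (M : ℤ) ≤ lev l (pos v t i)}

theorem measurableSet_far (M : ℕ) : MeasurableSet (Far v l M) := by
  refine (measurableSet_up v _).inter ?_
  have e : {t : ℕ → Fin k | ∃ i, (M : ℤ) ≤ lev l (pos v t i)} =
      ⋃ i, {t | pos v t i ∈ {z | (M : ℤ) ≤ lev l z}} := by
    ext t; simp
  rw [e]
  exact .iUnion fun i => measurableSet_pos_mem v i _

theorem dn_congr (M₁ N₁ M₂ N₂ : ℕ) {t t' : ℕ → Fin k} {i : ℕ} (h : ∀ j < i, t' j = t j) :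
    Dn v l M₁ N₁ M₂ N₂ t' i = Dn v l M₁ N₁ M₂ N₂ t i := by
  rw [Dn, Dn, past_congr v h, pos_congr v h le_rfl]

/-- Cuts at time `i` with height in `[0, M₁)`. -/
def Cut (M₁ N₁ M₂ N₂ i : ℕ) : Set (ℕ → Fin k) :=
  {t | (0 ≤ lev l (pos v t i) ∧ lev l (pos v t i) < M₁) ∧ shift i t ∈ Dn v l M₁ N₁ M₂ N₂ t i}

/-- The first `i` steps. -/
def head (i : ℕ) (t : ℕ → Fin k) : Fin i → Fin k := fun j => t j

omit [NeZero k] in
theorem measurable_head (i : ℕ) : Measurable (head i : (ℕ → Fin k) → Fin i → Fin k) :=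
  measurable_pi_lambda _ fun j => measurable_pi_apply (j : ℕ)

theorem head_preimage (i : ℕ) (w : Fin i → Fin k) :
    head i ⁻¹' {w} = {t : ℕ → Fin k | ∀ j < i, t j = ext' w j} := by
  ext t
  simp only [head, Set.mem_preimage, Set.mem_singleton_iff, Set.mem_ofPred_eq, funext_iff,
    Fin.forall_iff]
  exact forall₂_congr fun j hj => by simp [ext', hj]

theorem ext'_head (i : ℕ) (t : ℕ → Fin k) {j : ℕ} (hj : j < i) : ext' (head i t) j = t j := by
  simp [ext', head, hj]

theorem measurableSet_cut (M₁ N₁ M₂ N₂ i : ℕ) : MeasurableSet (Cut v l M₁ N₁ M₂ N₂ i) := by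
  have e : Cut v l M₁ N₁ M₂ N₂ i = ⋃ w : Fin i → Fin k,
      ({t | (∀ j < i, t j = ext' w j) ∧ (fun q => t (i + q)) ∈ Dn v l M₁ N₁ M₂ N₂ (ext' w) i} ∩
        {t | pos v t i ∈ {z | 0 ≤ lev l z ∧ lev l z < M₁}}) := by
    ext t
    simp only [Cut, Set.mem_iUnion, Set.mem_inter_iff, Set.mem_ofPred_eq]
    refine ⟨fun ⟨h1, h2⟩ => ⟨head i t, ⟨fun j hj => (ext'_head i t hj).symm, ?_⟩, h1⟩,
      fun ⟨w, ⟨h1, h2⟩, h3⟩ => ⟨h3, ?_⟩⟩
    · rw [dn_congr v l M₁ N₁ M₂ N₂ fun j hj => ext'_head i t hj]; exact h2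
    · rw [dn_congr v l M₁ N₁ M₂ N₂ fun j hj => h1 j hj]; exact h2
  rw [e]
  exact .iUnion fun w => (measurableSet_prefix_inter i _ (measurableSet_dn v l _ _ _ _ _ _)).inter
    (measurableSet_pos_mem v i _)

/-- Gluing at time `i`. -/
theorem lintegral_cut (M₁ N₁ M₂ N₂ i : ℕ) :
    ∫⁻ t, {t | 0 ≤ lev l (pos v t i) ∧ lev l (pos v t i) < M₁}.indicator
      (fun t => law v μ (Dn v l M₁ N₁ M₂ N₂ t i)) t ∂law v μ ≤
      law v μ (Cut v l M₁ N₁ M₂ N₂ i) := by
  classical
  let F : (Fin i → Fin k) → ℝ≥0∞ := fun w =>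
    if 0 ≤ lev l (pos v (ext' w) i) ∧ lev l (pos v (ext' w) i) < M₁ then
      law v μ (Dn v l M₁ N₁ M₂ N₂ (ext' w) i) else 0
  have hF : ∀ t, {t | 0 ≤ lev l (pos v t i) ∧ lev l (pos v t i) < M₁}.indicator
      (fun t => law v μ (Dn v l M₁ N₁ M₂ N₂ t i)) t = F (head i t) := fun t => by
    simp only [F, Set.indicator_apply, Set.mem_ofPred_eq,
      dn_congr v l M₁ N₁ M₂ N₂ fun j hj => ext'_head i t hj,
      pos_congr v (fun j hj => ext'_head i t hj) le_rfl]
  simp only [hF]
  rw [← lintegral_map (measurable_of_countable F) (measurable_head i), lintegral_fintype]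
  calc ∑ w, F w * (law v μ).map (head i) {w}
      = ∑ w, if 0 ≤ lev l (pos v (ext' w) i) ∧ lev l (pos v (ext' w) i) < M₁ then
          law v μ {t | (∀ j < i, t j = ext' w j) ∧
            shift i t ∈ Dn v l M₁ N₁ M₂ N₂ (ext' w) i} else 0 := by
        refine sum_congr rfl fun w _ => ?_
        simp only [F]
        split_ifs
        · rw [Measure.map_apply (measurable_head i) (measurableSet_singleton _), head_preimage,
            mul_comm, law_fresh v μ (past v i (ext' w))ᶜ (fun j hj hmem => hmem ⟨j, hj, rfl⟩)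
              (measurableSet_dn v l M₁ N₁ M₂ N₂ _ i) fun s hs q => hs.1.2 q]
        · rw [zero_mul]
    _ ≤ ∑ w, law v μ (Cut v l M₁ N₁ M₂ N₂ i ∩ head i ⁻¹' {w}) := by
        refine sum_le_sum fun w _ => ?_
        split_ifs with h
        · refine measure_mono fun t ⟨h1, h2⟩ => ⟨⟨?_, ?_⟩, ?_⟩
          · rw [pos_congr v h1 le_rfl]; exact h
          · rwa [dn_congr v l M₁ N₁ M₂ N₂ h1]
          · rw [head_preimage]; exact h1
        · exact zero_le
    _ = law v μ (⋃ w, Cut v l M₁ N₁ M₂ N₂ i ∩ head i ⁻¹' {w}) := by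
        rw [measure_iUnion (fun a b hab => Set.disjoint_left.2 fun t ha hb =>
          hab (ha.2.symm.trans hb.2)) (fun w => (measurableSet_cut v l _ _ _ _ i).inter
          (measurable_head i (measurableSet_singleton _))), tsum_fintype]
    _ ≤ _ := measure_mono (Set.iUnion_subset fun w => Set.inter_subset_left)

/-- A path has few cuts, unless it rises high and then escapes downwards. -/
theorem sum_cut_count (M₁ N₁ M₂ N₂ : ℕ) (t : ℕ → Fin k) :
    ∑' i, (Cut v l M₁ N₁ M₂ N₂ i).indicator 1 t ≤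
      (N₂ : ℝ≥0∞) + N₁ * (Far v l M₂).indicator 1 t := by
  classical
  refine ENNReal.tsum_le_of_sum_range_le fun n => ?_
  set C := (range n).filter fun i => t ∈ Cut v l M₁ N₁ M₂ N₂ i
  have hsum : ∑ i ∈ range n, (Cut v l M₁ N₁ M₂ N₂ i).indicator 1 t = (C.card : ℝ≥0∞) := by
    simp only [C, Set.indicator_apply, Pi.one_apply, sum_boole]
  rw [hsum]
  have hav : ∀ i ∈ C, ∀ j < i, pos v t j ≠ pos v t i := fun i hi j hj e =>
    (mem_filter.1 hi).2.2.1.2 0 ⟨j, hj, by rw [e, sub_self]; simp [pos]⟩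
  have hinj : ∀ D ⊆ C, (D.image fun i => pos v t i).card = D.card := fun D hD =>
    card_image_of_injOn fun i hi j hj e => by
      rcases lt_trichotomy i j with h | h | h
      · exact absurd e (hav j (hD hj) i h)
      · exact h
      · exact absurd e.symm (hav i (hD hi) j h)
  have key : ∀ {M N : ℕ} (D : Finset ℕ), D ⊆ C → (∀ i ∈ D, lev l (pos v t i) < M) →
      (∀ i ∈ C, shift i t ∈ Occ' v l M N (pos v t i)) → D.card ≤ N := by
    intro M N D hD hM hocc
    rcases D.eq_empty_or_nonempty with h | h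
    · simp [h]
    rw [← hinj D hD]
    refine hocc (D.min' h) (hD (D.min'_mem h)) _ fun z hz => ?_
    obtain ⟨i, hi, rfl⟩ := mem_image.1 hz
    refine ⟨⟨(mem_filter.1 (hD hi)).2.1.1, hM i hi⟩, i - D.min' h, ?_⟩
    rw [← shift_pos v t, Nat.add_sub_cancel' (D.min'_le i hi)]
  by_cases hhigh : ∃ i ∈ C, (M₂ : ℤ) ≤ lev l (pos v t i)
  · obtain ⟨i, hi, hlev⟩ := hhigh
    have hfar : t ∈ Far v l M₂ := ⟨(up_shift v (-lvl l) t i).1 (mem_filter.1 hi).2.2.1.1, i, hlev⟩
    rw [Set.indicator_of_mem hfar, Pi.one_apply, mul_one]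
    refine le_add_left ?_
    exact_mod_cast key C subset_rfl (fun i hi => (mem_filter.1 hi).2.1.2)
      fun i hi => (mem_filter.1 hi).2.2.2.1
  · push Not at hhigh
    refine le_add_right ?_
    exact_mod_cast key C subset_rfl hhigh fun i hi => (mem_filter.1 hi).2.2.2.2

/-- The expected number of cuts. -/
theorem sum_cut_le (hp : law v μ (StayUp v (lvl l)) ≠ 0) (M₁ N₁ M₂ N₂ m : ℕ) :
    ∫⁻ t in {t | lev l (pos v t (regTime v (lvl l) m t)) < M₁},
      ∑ i ∈ range (regTime v (lvl l) m t + 1), law v μ (Dn v l M₁ N₁ M₂ N₂ t i)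
      ∂upLaw v μ (lvl l) ≤
      (law v μ (StayUp v (lvl l)))⁻¹ * ((N₂ : ℝ≥0∞) + N₁ * law v μ (Far v l M₂)) := by
  classical
  have hpm : Measurable fun x : (ℕ → Fin k) × ℕ => pos v x.1 x.2 :=
    measurable_from_prod_countable_left fun j => measurable_pos v j
  have hG : MeasurableSet {t | lev l (pos v t (regTime v (lvl l) m t)) < M₁} :=
    (hpm.comp (measurable_id.prodMk (meas_regTime v (lvl l) m)))
      (Set.to_countable {z : Site d | lev l z < M₁}).measurableSet
  set Φ : (ℕ → Fin k) → ℝ≥0∞ := fun t =>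
    ∑' i, {t | 0 ≤ lev l (pos v t i) ∧ lev l (pos v t i) < M₁}.indicator
      (fun t => law v μ (Dn v l M₁ N₁ M₂ N₂ t i)) t
  calc _ ≤ ∫⁻ t in {t | lev l (pos v t (regTime v (lvl l) m t)) < M₁}, Φ t ∂upLaw v μ (lvl l) := by
        refine lintegral_mono_ae ?_
        filter_upwards [ae_restrict_mem hG,
          ae_restrict_of_ae (regTime_reg v μ (lvl l) hp),
          ae_restrict_of_ae (ae_upLaw v μ (lvl l) (q := fun t => t ∈ stay v (lvl l))
            (ae_of_all _ fun t ht => ht.1))] with t htG hr hst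
        refine le_trans (sum_le_sum fun i hi => ?_) (ENNReal.sum_le_tsum _)
        rw [Set.indicator_of_mem]
        refine ⟨?_, ?_⟩
        · have := hst i
          rw [lvl_eq] at this
          exact_mod_cast this
        · refine lt_of_le_of_lt ?_ htG
          rcases (Nat.lt_succ_iff.1 (mem_range.1 hi)).lt_or_eq with h | h
          · rcases m with _ | m
            · simp [regTime] at h
            · have h3 := (hr.2 (m + 1)).2.2.1 i h
              rw [lvl_eq, lvl_eq] at h3
              exact_mod_cast h3.le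
          · rw [h]
    _ ≤ ∫⁻ t, Φ t ∂upLaw v μ (lvl l) := setLIntegral_le_lintegral _ _
    _ ≤ (law v μ (StayUp v (lvl l)))⁻¹ * ∫⁻ t, Φ t ∂law v μ := by
        rw [upLaw, lintegral_smul_measure, smul_eq_mul]
        exact mul_le_mul' le_rfl (setLIntegral_le_lintegral _ _)
    _ ≤ _ := by
        refine mul_le_mul' le_rfl ?_
        have hm : ∀ i, Measurable ({t | 0 ≤ lev l (pos v t i) ∧ lev l (pos v t i) < M₁}.indicator
            (fun t => law v μ (Dn v l M₁ N₁ M₂ N₂ t i))) := fun i => by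
          refine Measurable.indicator ?_
            (measurableSet_pos_mem v i {z | 0 ≤ lev l z ∧ lev l z < M₁})
          have e : (fun t => law v μ (Dn v l M₁ N₁ M₂ N₂ t i)) =
              (fun w => law v μ (Dn v l M₁ N₁ M₂ N₂ (ext' w) i)) ∘ head i := funext fun t => by
            simp [dn_congr v l M₁ N₁ M₂ N₂ fun j hj => ext'_head i t hj]
          rw [e]
          exact (measurable_of_countable _).comp (measurable_head i)
        have hc := fun i => measurableSet_cut v l M₁ N₁ M₂ N₂ i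
        calc ∫⁻ t, Φ t ∂law v μ ≤ ∑' i, law v μ (Cut v l M₁ N₁ M₂ N₂ i) := by
              rw [lintegral_tsum fun i => (hm i).aemeasurable]
              exact ENNReal.tsum_le_tsum (lintegral_cut v μ l M₁ N₁ M₂ N₂)
          _ = ∫⁻ t, ∑' i, (Cut v l M₁ N₁ M₂ N₂ i).indicator 1 t ∂law v μ := by
              rw [lintegral_tsum fun i => ((measurable_one.indicator (hc i))).aemeasurable]
              exact tsum_congr fun i => (lintegral_indicator_one (hc i)).symm
          _ ≤ ∫⁻ t, ((N₂ : ℝ≥0∞) + N₁ * (Far v l M₂).indicator 1 t) ∂law v μ :=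
              lintegral_mono fun t => sum_cut_count v l M₁ N₁ M₂ N₂ t
          _ = _ := by
              rw [lintegral_add_left measurable_const, lintegral_const, measure_univ, mul_one,
                lintegral_const_mul' _ _ (ENNReal.natCast_ne_top _),
                lintegral_indicator_one (measurableSet_far v l M₂)]

/-- Paths escaping downwards rarely rise high. -/
theorem tendsto_far : Tendsto (fun M => law v μ (Far v l M)) atTop (𝓝 0) := by
  have hanti : Antitone (Far v l) := fun M M' h t ht =>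
    ⟨ht.1, ht.2.imp fun i hi => le_trans (by exact_mod_cast h) hi⟩
  have hempty : ⋂ M, Far v l M = ∅ := by
    refine Set.eq_empty_iff_forall_notMem.2 fun t ht => ?_
    have h1 := (Set.mem_iInter.1 ht 0).1
    obtain ⟨n, hn⟩ := Tendsto.exists_forall_le (f := fun i => (-lvl l) (pos v t i))
      (by rw [Nat.cofinite_eq_atTop]; exact h1)
    obtain ⟨i, hi⟩ := (Set.mem_iInter.1 ht ((lev l (pos v t n)).toNat + 1)).2
    have h2 := hn i
    simp only [AddMonoidHom.neg_apply, neg_le_neg_iff, lvl_eq, Int.cast_le] at h2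
    omega
  have := tendsto_measure_iInter_atTop (μ := law v μ)
    (fun M => (measurableSet_far v l M).nullMeasurableSet) hanti ⟨0, measure_ne_top _ _⟩
  rw [hempty, measure_empty] at this
  exact this

end Vale.Agent.P147.Semi
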