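import Vale.Agent.P147.Semi.Cross
import Vale.Agent.P147.Semi.Upper

/-!
P147, a nonzero velocity forces the zero-one law: the main inequality for a fixed first path.
Fresh walks from its regeneration sites find the earliest visited site of the past; that site is
a cut, and two of them rarely share it.
-/

open MeasureTheory Filter Finset
open scoped ENNReal

namespace Vale.Agent.P147.Semi

open Vale.Agent.P147.Cond Vale.Agent.P147.Dir Vale.Agent.P147.Dir.Blocks Vale.Agent.P147.Glue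

variable {d k : ℕ} [NeZero k] (v : Fin k → Site d) (μ : Measure (Row k)) [IsProbabilityMeasure μ]

/-- Strong Markov property at a prefix event with a fixed end point. -/
theorem qLaw_markov (ω : Site d → Row k) (n : ℕ) {E : Set (ℕ → Fin k)}
    (hE : ∀ t t' : ℕ → Fin k, (∀ i < n, t i = t' i) → t ∈ E → t' ∈ E) {z : Site d}
    (hz : ∀ t ∈ E, pos v t n = z) {B : Set (ℕ → Fin k)} (hB : MeasurableSet B) :
    qLaw v ω (E ∩ {t | shift n t ∈ B}) = qLaw v ω E * qLaw v (seen z ω) B := by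
  classical
  rw [show {t : ℕ → Fin k | shift n t ∈ B} = shift n ⁻¹' B from rfl, sum_prefix (qLaw v ω) n hE (meas_shift n hB), qLaw_sum v ω n hE, sum_mul]
  refine sum_congr rfl fun w _ => ?_
  split_ifs with hw
  · rw [show {t | ∀ i < n, t i = ext' w i} ∩ shift n ⁻¹' B =
        {t | (∀ i < n, t i = ext' w i) ∧ (fun i => t (n + i)) ∈ B} from rfl,
      qLaw_apply v ω (measurableSet_prefix_inter n _ hB), quenched_prefix v ω _ n hB,
      ← qLaw_apply v _ hB, ← hz _ hw]
    rfl
  · simp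

/-- Two quenched walks depend measurably on the environment. -/
theorem measurable_qPair (z : Site d) {A : Set ((ℕ → Fin k) × (ℕ → Fin k))}
    (hA : MeasurableSet A) :
    Measurable fun ω => ((qLaw v ω).prod (qLaw v (seen z ω))) A := by
  have e : (fun ω => ((qLaw v ω).prod (qLaw v (seen z ω))) A) = fun ω => (uLaw.prod uLaw)
      (Prod.mk ω ⁻¹' ((fun x : (Site d → Row k) × (ℕ → ℝ) × (ℕ → ℝ) =>
        (steps v x.1 x.2.1, steps v (seen z x.1) x.2.2)) ⁻¹' A)) := funext fun ω => by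
    rw [qLaw, qLaw, Measure.map_prod_map _ _ (measurable_stepsAt v _) (measurable_stepsAt v _),
      Measure.map_apply ((measurable_stepsAt v _).prodMap (measurable_stepsAt v _)) hA]
    rfl
  rw [e]
  exact measurable_measure_prodMk_left (measurable_pair v z hA)

variable (l : Fin d → ℤ) (η : ℝ≥0∞) (M₁ N₁ M₂ N₂ : ℕ) (t : ℕ → Fin k)

/-- The walk from `y` is alive until it first finds, at time `n`, a site of index at most `i`,
and this is the site of index `i`. -/
def Hit (y : Site d) (i n : ℕ) : Set (ℕ → Fin k) :=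
  {s | Alive v μ (-lvl l) η n s ∧ y + pos v s n = pos v t i ∧
    ∀ j < n, ∀ r ≤ i, y + pos v s j ≠ pos v t r}

/-- The walk from `y` finds the site of index `i` first and goes on to cut there. -/
def Join (y : Site d) (i : ℕ) : Set (ℕ → Fin k) :=
  ⋃ n, Hit v μ l η t y i n ∩ {s | shift n s ∈ Dn v l M₁ N₁ M₂ N₂ t i}

omit [IsProbabilityMeasure μ] in
theorem hit_congr (y : Site d) (i n : ℕ) : ∀ s s' : ℕ → Fin k, (∀ q < n, s q = s' q) →
    s ∈ Hit v μ l η t y i n → s' ∈ Hit v μ l η t y i n := by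
  rintro s s' h ⟨h1, h2, h3⟩
  refine ⟨(alive_congr v μ (-lvl l) η h).1 h1, ?_, fun j hj r hr => ?_⟩
  · rwa [← pos_congr v h le_rfl]
  · rw [← pos_congr v h hj.le]; exact h3 j hj r hr

omit [IsProbabilityMeasure μ] in
theorem disjoint_hit (y : Site d) (i : ℕ) :
    Pairwise (Function.onFun Disjoint (Hit v μ l η t y i)) := fun a b hab => by
  refine Set.disjoint_left.2 fun s ha hb => ?_
  rcases lt_or_gt_of_ne hab with h | h
  exacts [hb.2.2 a h i le_rfl ha.2.1, ha.2.2 b h i le_rfl hb.2.1]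

omit [IsProbabilityMeasure μ] in
theorem measurableSet_hit (y : Site d) (i n : ℕ) : MeasurableSet (Hit v μ l η t y i n) :=
  measurableSet_of_prefix n (hit_congr v μ l η t y i n)

omit [IsProbabilityMeasure μ] in
theorem measurableSet_join (y : Site d) (i : ℕ) :
    MeasurableSet (Join v μ l η M₁ N₁ M₂ N₂ t y i) :=
  .iUnion fun n => (measurableSet_hit v μ l η t y i n).inter
    (meas_shift n (measurableSet_dn v l M₁ N₁ M₂ N₂ t i))

omit [IsProbabilityMeasure μ] in
theorem disjoint_join (y : Site d) :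
    Pairwise (Function.onFun Disjoint (Join v μ l η M₁ N₁ M₂ N₂ t y)) := by
  suffices h : ∀ i i', i < i' →
      Disjoint (Join v μ l η M₁ N₁ M₂ N₂ t y i) (Join v μ l η M₁ N₁ M₂ N₂ t y i') from
    fun a b hab => (lt_or_gt_of_ne hab).elim (h a b) fun h' => (h b a h').symm
  intro i i' hlt
  refine Set.disjoint_left.2 fun s hs hs' => ?_
  obtain ⟨n, hn, -⟩ := Set.mem_iUnion.1 hs
  obtain ⟨n', hn', hd'⟩ := Set.mem_iUnion.1 hs'
  rcases lt_or_ge n n' with h | h
  · exact hn'.2.2 n h i hlt.le hn.2.1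
  · refine hd'.1.2 (n - n') ⟨i, hlt, ?_⟩
    have e := hn.2.1
    rw [← Nat.add_sub_cancel' h, shift_pos, ← add_assoc, hn'.2.1] at e
    rw [← e, add_sub_cancel_left]

omit [IsProbabilityMeasure μ] in
/-- A walk which is always alive joins the past at the earliest site it visits. -/
theorem subset_join (y : Site d) (T : ℕ) (hy : ∃ r ≤ T, pos v t r = y) :
    StayUp v (-lvl l) ∩ Cls v l M₁ N₁ M₂ N₂ y ∩ {s | ∀ n, Alive v μ (-lvl l) η n s} ⊆
      ⋃ i ∈ range (T + 1), Join v μ l η M₁ N₁ M₂ N₂ t y i := by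
  classical
  rintro s ⟨⟨hs, hc1, hc2⟩, hal⟩
  have hexi : ∃ i, ∃ n, y + pos v s n = pos v t i := by
    obtain ⟨r, -, hr⟩ := hy
    exact ⟨r, 0, by simp [pos, ← hr]⟩
  set i := Nat.find hexi
  have hiT : i ≤ T := by
    obtain ⟨r, hrT, hr⟩ := hy
    exact (Nat.find_min' hexi ⟨0, by simp [pos, ← hr]⟩).trans hrT
  set n := Nat.find (Nat.find_spec hexi)
  have hn : y + pos v s n = pos v t i := Nat.find_spec (Nat.find_spec hexi)
  refine Set.mem_iUnion₂.2 ⟨i, mem_range.2 (Nat.lt_succ_of_le hiT), Set.mem_iUnion.2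
    ⟨n, ⟨hal n, hn, fun j hj r hr he => ?_⟩, ⟨(up_shift_iff v (-lvl l) s n).2 hs.2, ?_⟩, ?_⟩⟩
  · rcases hr.lt_or_eq with h | rfl
    · exact Nat.find_min hexi h ⟨j, he⟩
    · exact Nat.find_min (Nat.find_spec hexi) hj he
  · rintro q ⟨r, hr, hq⟩
    refine Nat.find_min hexi hr ⟨n + q, ?_⟩
    rw [shift_pos, ← add_assoc, hn, hq, add_sub_cancel]
  · have key : ∀ M N, s ∈ Occ' v l M N y → shift n s ∈ Occ' v l M N (pos v t i) :=
      fun M N h F hF => h F fun z hz => ⟨(hF z hz).1, (hF z hz).2.elim fun q hq =>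
        ⟨n + q, by rw [shift_pos, ← add_assoc, hn, hq]⟩⟩
    exact ⟨key _ _ hc1, key _ _ hc2⟩

variable {t}

omit [IsProbabilityMeasure μ] in
/-- The inequality in a fixed environment. -/
theorem quenched_le (ω : Site d → Row k) (y : ℕ → Site d) (m T : ℕ)
    (hy : ∀ j < m, ∃ r ≤ T, pos v t r = y j) {L : ℝ≥0∞} (hL0 : L ≠ 0) (hLt : L ≠ ∞) :
    ∑ j ∈ range m, qLaw v (seen (y j) ω)
        (StayUp v (-lvl l) ∩ Cls v l M₁ N₁ M₂ N₂ (y j) ∩ {s | ∀ n, Alive v μ (-lvl l) η n s}) ≤
      L * ∑ i ∈ range (T + 1), qLaw v (seen (pos v t i) ω) (Dn v l M₁ N₁ M₂ N₂ t i) +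
      L⁻¹ * ∑ a ∈ range m, ∑ b ∈ range m,
        ((qLaw v (seen (y a) ω)).prod (qLaw v (seen (y b) ω)))
          (MeetAlive v μ (-lvl l) η (y b - y a)) := by
  classical
  set g : ℕ → ℝ≥0∞ := fun i => qLaw v (seen (pos v t i) ω) (Dn v l M₁ N₁ M₂ N₂ t i)
  set K : ℕ → ℕ → ℝ≥0∞ := fun j i => qLaw v (seen (y j) ω) (⋃ n, Hit v μ l η t (y j) i n)
  have hjoin : ∀ j i, qLaw v (seen (y j) ω) (Join v μ l η M₁ N₁ M₂ N₂ t (y j) i) =
      K j i * g i := by
    intro j i
    simp only [K, Join]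
    rw [measure_iUnion (f := fun n => Hit v μ l η t (y j) i n ∩
          {s | shift n s ∈ Dn v l M₁ N₁ M₂ N₂ t i})
        (fun a b hab => ((disjoint_hit v μ l η t (y j) i) hab).mono
          Set.inter_subset_left Set.inter_subset_left) (fun n =>
        (measurableSet_hit v μ l η t _ i n).inter
          (meas_shift n (measurableSet_dn v l M₁ N₁ M₂ N₂ t i))),
      measure_iUnion (disjoint_hit v μ l η t (y j) i) (measurableSet_hit v μ l η t _ i),
      ← ENNReal.tsum_mul_right]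
    refine tsum_congr fun n => ?_
    rw [qLaw_markov v (seen (y j) ω) n (hit_congr v μ l η t (y j) i n)
      (z := pos v t i - y j) (fun s hs => eq_sub_of_add_eq' hs.2.1)
      (measurableSet_dn v l M₁ N₁ M₂ N₂ t i), seen_seen, add_sub_cancel]
  have hlow : ∀ j < m, qLaw v (seen (y j) ω)
      (StayUp v (-lvl l) ∩ Cls v l M₁ N₁ M₂ N₂ (y j) ∩ {s | ∀ n, Alive v μ (-lvl l) η n s}) ≤
      ∑ i ∈ range (T + 1), K j i * g i := fun j hj => by
    refine (measure_mono (subset_join v μ l η M₁ N₁ M₂ N₂ t (y j) T (hy j hj))).trans ?_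
    refine (measure_biUnion_finset_le _ _).trans (le_of_eq ?_)
    exact sum_congr rfl fun i _ => hjoin j i
  have hcross : ∀ a b, ∑ i ∈ range (T + 1), K a i * g i * K b i ≤
      ((qLaw v (seen (y a) ω)).prod (qLaw v (seen (y b) ω)))
        (MeetAlive v μ (-lvl l) η (y b - y a)) := by
    intro a b
    simp only [← hjoin, K, ← Measure.prod_prod]
    rw [← measure_biUnion_finset (fun i _ i' _ hne => Set.disjoint_left.2 fun x hx hx' =>
        Set.disjoint_left.1 (disjoint_join v μ l η M₁ N₁ M₂ N₂ t (y a) hne) hx.1 hx'.1)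
      fun i _ => (measurableSet_join v μ l η M₁ N₁ M₂ N₂ t _ i).prod
        (.iUnion fun n => measurableSet_hit v μ l η t _ i n)]
    refine measure_mono (Set.iUnion₂_subset fun i _ x hx => ?_)
    obtain ⟨n, ⟨h1, h2, -⟩, -⟩ := Set.mem_iUnion.1 hx.1
    obtain ⟨n', h1', h2', -⟩ := Set.mem_iUnion.1 hx.2
    refine ⟨n, n', h1, h1', ?_⟩
    rw [sub_add_eq_add_sub, h2', ← h2, add_sub_cancel_left]
  calc ∑ j ∈ range m, qLaw v (seen (y j) ω)
        (StayUp v (-lvl l) ∩ Cls v l M₁ N₁ M₂ N₂ (y j) ∩ {s | ∀ n, Alive v μ (-lvl l) η n s})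
      ≤ ∑ j ∈ range m, ∑ i ∈ range (T + 1), K j i * g i :=
        sum_le_sum fun j hj => hlow j (mem_range.1 hj)
    _ = ∑ i ∈ range (T + 1), (∑ j ∈ range m, K j i) * g i := by
        rw [sum_comm]; simp only [sum_mul]
    _ ≤ ∑ i ∈ range (T + 1), (L * g i + L⁻¹ * ((∑ j ∈ range m, K j i) * g i *
          ∑ j ∈ range m, K j i)) := by
        refine sum_le_sum fun i _ => ?_
        set S := ∑ j ∈ range m, K j i
        rcases le_total S L with h | h
        · exact le_add_right (mul_le_mul' h le_rfl)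
        · refine le_add_left ?_
          calc S * g i = L⁻¹ * (S * g i * L) := by
                rw [mul_comm (S * g i), ← mul_assoc, ENNReal.inv_mul_cancel hL0 hLt, one_mul]
            _ ≤ _ := by gcongr
    _ = L * ∑ i ∈ range (T + 1), g i + L⁻¹ * ∑ a ∈ range m, ∑ b ∈ range m,
          ∑ i ∈ range (T + 1), K a i * g i * K b i := by
        rw [sum_add_distrib, ← mul_sum, ← mul_sum]
        congr 2
        simp only [sum_mul, mul_sum]
        refine (sum_congr rfl fun i _ => sum_comm).trans (sum_comm.trans ?_)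
        exact sum_congr rfl fun a _ => sum_comm
    _ ≤ _ := by gcongr; exact hcross _ _

/-- The inequality for a fixed first path, environments averaged. -/
theorem pointwise_le (y : ℕ → Site d) (m T : ℕ)
    (hy : ∀ j < m, ∃ r ≤ T, pos v t r = y j) {L : ℝ≥0∞} (hL0 : L ≠ 0) (hLt : L ≠ ∞) :
    ∑ j ∈ range m, law v μ
        (StayUp v (-lvl l) ∩ Cls v l M₁ N₁ M₂ N₂ (y j) ∩ {s | ∀ n, Alive v μ (-lvl l) η n s}) ≤
      L * ∑ i ∈ range (T + 1), law v μ (Dn v l M₁ N₁ M₂ N₂ t i) +
      L⁻¹ * ∑ a ∈ range m, ∑ b ∈ range m,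
        pairLaw v μ (y b - y a) (MeetAlive v μ (-lvl l) η (y b - y a)) := by
  have hX : ∀ j, MeasurableSet
      (StayUp v (-lvl l) ∩ Cls v l M₁ N₁ M₂ N₂ (y j) ∩ {s | ∀ n, Alive v μ (-lvl l) η n s}) :=
    fun j => ((measurableSet_StayUp v _).inter (measurableSet_cls v l M₁ N₁ M₂ N₂ _)).inter
      (by simp only [Set.ofPred_forall]; exact .iInter fun n => measurableSet_alive v μ _ η n)
  have hq : ∀ x {B : Set (ℕ → Fin k)}, MeasurableSet B →
      Measurable fun ω : Site d → Row k => qLaw v (seen x ω) B := fun x B hB =>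
    (measurable_qLaw v hB).comp (measurable_seen x)
  have hse : ∀ a b, ∀ ω : Site d → Row k,
      ((qLaw v (seen (y a) ω)).prod (qLaw v (seen (y b) ω)))
          (MeetAlive v μ (-lvl l) η (y b - y a)) =
        ((qLaw v (seen (y a) ω)).prod (qLaw v (seen (y b - y a) (seen (y a) ω))))
          (MeetAlive v μ (-lvl l) η (y b - y a)) := fun a b ω => by
    rw [seen_seen, add_sub_cancel]
  have hp : ∀ a b, Measurable fun ω : Site d → Row k =>
      ((qLaw v (seen (y a) ω)).prod (qLaw v (seen (y b) ω)))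
        (MeetAlive v μ (-lvl l) η (y b - y a)) := fun a b => by
    simp only [hse]
    exact (measurable_qPair v _ (measurableSet_meetAlive v μ _ η _)).comp (measurable_seen _)
  have hpi : ∀ a b, ∫⁻ ω, ((qLaw v (seen (y a) ω)).prod (qLaw v (seen (y b) ω)))
      (MeetAlive v μ (-lvl l) η (y b - y a)) ∂envLaw μ =
        pairLaw v μ (y b - y a) (MeetAlive v μ (-lvl l) η (y b - y a)) := fun a b => by
    simp only [hse]
    rw [pairLaw_apply v μ _ (measurableSet_meetAlive v μ _ η _)]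
    conv_rhs => rw [← show (envLaw (d := d) μ).map (seen (y a)) = envLaw μ from
      map_shift_env μ (y a)]
    rw [lintegral_map (measurable_qPair v _ (measurableSet_meetAlive v μ _ η _))
      (measurable_seen _)]
  have h := lintegral_mono (μ := envLaw (d := d) μ)
    fun ω => quenched_le v μ l η M₁ N₁ M₂ N₂ ω y m T hy hL0 hLt
  rw [lintegral_finsetSum _ fun j _ => hq _ (hX j),
    lintegral_add_left ((Finset.measurable_sum _ fun i _ =>
      hq _ (measurableSet_dn v l M₁ N₁ M₂ N₂ t i)).const_mul L),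
    lintegral_const_mul' _ _ hLt, lintegral_const_mul' _ _ (ENNReal.inv_ne_top.2 hL0),
    lintegral_finsetSum _ fun i _ => hq _ (measurableSet_dn v l M₁ N₁ M₂ N₂ t i),
    lintegral_finsetSum _ fun a _ => Finset.measurable_sum _ fun b _ => hp a b] at h
  simp only [fun j => lintegral_qLaw v μ (y j) (hX j),
    fun i => lintegral_qLaw v μ (pos v t i) (measurableSet_dn v l M₁ N₁ M₂ N₂ t i)] at h
  refine h.trans (add_le_add le_rfl (mul_le_mul' le_rfl (sum_le_sum fun a _ => ?_)))
  rw [lintegral_finsetSum _ fun b _ => hp a b]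
  exact le_of_eq (sum_congr rfl fun b _ => hpi a b)

end Vale.Agent.P147.Semi
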