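import Vale.Agent.P147.Speed.Conc

/-!
Concentration of iid sums with the weight `n + 1`: five independent coins in one level give point
masses bounded by `ρ n (level)` with `∑ n, ∑ k, (n + 1) * ρ n k < ∞`.
-/

namespace Vale.Agent.P147.Semi

open MeasureTheory Vale.Agent.P147.Speed
open scoped ENNReal

variable {G : Type*} [AddCommGroup G] {μ' : G → ℝ≥0∞} {p : ℝ≥0∞}

lemma tsum_wrest_le (hp0 : p ≠ 0) (hpt : p ≠ ⊤) (hpq : ∑' g, μ' g + p = 1) (K : ℕ) :
    ∑' n : ℕ, ((n : ℝ≥0∞) + 1) * ∑' x, rest μ' p n K x ≤ ((K : ℝ≥0∞) + 1) * (p⁻¹ * p⁻¹) := by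
  classical
  set q := ∑' g, μ' g with hq
  set P := p⁻¹ with hP
  have hpP : p * P = 1 := ENNReal.mul_inv_cancel hp0 hpt
  have hP1 : q * P + 1 = P := by
    calc q * P + 1 = (q + p) * P := by rw [add_mul, hpP]
      _ = P := by rw [hpq, one_mul]
  have hPP : q * (P * P) + P = P * P := by
    calc q * (P * P) + P = (q * P + 1) * P := by ring
      _ = P * P := by rw [hP1]
  refine ENNReal.tsum_le_of_sum_range_le fun N => ?_
  induction N generalizing K with
  | zero => simp
  | succ N ih =>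
    have hA : ∀ K, ∑ n ∈ Finset.range N, ∑' x, rest μ' p n K x ≤ P := fun K =>
      le_trans (ENNReal.sum_le_tsum _) (tsum_rest_le hp0 hpt hpq K)
    have hB : ∀ K, ∑ n ∈ Finset.range N, (((n + 1 : ℕ) : ℝ≥0∞) + 1) * ∑' x, rest μ' p n K x ≤
        ((K : ℝ≥0∞) + 1) * (P * P) + P := fun K => by
      push_cast
      simp only [add_mul, one_mul, Finset.sum_add_distrib] at ih ⊢
      exact add_le_add (ih K) (hA K)
    rw [Finset.sum_range_succ']
    cases K with
    | zero =>
      simp only [rest, tsum_tr, ← hq]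
      rw [tsum_ite_eq (0 : G) (fun _ => (1 : ℝ≥0∞))]
      simp only [← mul_assoc, ← Finset.sum_mul]
      calc _ ≤ (((0 : ℕ) : ℝ≥0∞) + 1) * (P * P) * q + P * q + 1 := by
            gcongr
            · exact (mul_le_mul_left (hB 0) q).trans_eq (add_mul _ _ _)
            · simp
        _ = (P * P) * q + (q * P + 1) := by push_cast; ring
        _ = q * (P * P) + P := by rw [hP1]; ring
        _ = P * P := hPP
        _ = _ := by simp
    | succ K =>
      simp only [rest, ENNReal.tsum_add, tsum_tr, ENNReal.tsum_mul_left, tsum_zero, mul_zero,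
        add_zero, ← hq, mul_add, Finset.sum_add_distrib]
      simp only [← mul_assoc, mul_comm _ p, ← Finset.sum_mul]
      simp only [mul_assoc, ← Finset.mul_sum]
      calc _ ≤ ((((K + 1 : ℕ) : ℝ≥0∞) + 1) * (P * P) + P) * q +
            p * (((K : ℝ≥0∞) + 1) * (P * P) + P) := by
            gcongr <;> exact hB _
        _ = ((K : ℝ≥0∞) + 2) * ((q + p) * (P * P)) := by
            have e : ((K : ℝ≥0∞) + 1) * (P * P) + P = ((K : ℝ≥0∞) + 1) * (P * P) + p * (P * P) := by
              rw [← mul_assoc p, hpP, one_mul]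
            rw [e]
            push_cast
            have e2 : P * q + p * (p * (P * P)) = q * P + p * P := by
              rw [show p * (p * (P * P)) = p * P * (p * P) by ring, hpP]; ring
            calc _ = ((K : ℝ≥0∞) + 2) * (P * P) * q + p * ((K : ℝ≥0∞) + 1) * (P * P) +
                  (P * q + p * (p * (P * P))) := by ring
              _ = ((K : ℝ≥0∞) + 2) * (P * P) * q + p * ((K : ℝ≥0∞) + 1) * (P * P) + P := by
                  rw [e2, ← add_mul, hpq, one_mul]
              _ = ((K : ℝ≥0∞) + 2) * (P * P) * q + p * ((K : ℝ≥0∞) + 1) * (P * P) +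
                  p * (P * P) := by rw [← mul_assoc p, hpP, one_mul]
              _ = _ := by ring
        _ = _ := by rw [hpq, one_mul]; push_cast; ring

lemma tsum_wrootBd_pow {m : ℕ} (hm : 5 ≤ m) : ∑' K : ℕ, ((K : ℝ≥0∞) + 1) * rootBd K ^ m ≠ ⊤ := by
  refine ne_top_of_le_ne_top (tsum_rootBd_pow (le_refl 3)) (ENNReal.tsum_le_tsum fun K => ?_)
  have e : ((K : ℝ≥0∞) + 1) * rootBd K ^ 2 = 1 := by
    rw [rootBd, ← ENNReal.ofReal_pow (by positivity), inv_pow, Real.sq_sqrt (by positivity),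
      show ((K : ℝ≥0∞) + 1) = ENNReal.ofReal ((K : ℝ) + 1) by
        rw [ENNReal.ofReal_add (by positivity) zero_le_one, ENNReal.ofReal_natCast,
          ENNReal.ofReal_one],
      ← ENNReal.ofReal_mul (by positivity), mul_inv_cancel₀ (by positivity), ENNReal.ofReal_one]
  calc ((K : ℝ≥0∞) + 1) * rootBd K ^ m
      = ((K : ℝ≥0∞) + 1) * rootBd K ^ 2 * rootBd K ^ (m - 2) := by
        rw [mul_assoc, ← pow_add]; congr 2; omega
    _ ≤ _ := by
        rw [e, one_mul]
        exact pow_le_pow_right_of_le_one' (rootBd_le_one K) (by omega)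

/-- The `n`-th iid sum: point masses are at most `ρ n (level)`, with `(n + 1) * ρ n` summable. -/
theorem exists_weighted_bound {β : Type*} [Countable β] [MeasurableSpace β]
    [DiscreteMeasurableSpace β] (ν : Measure β) [IsProbabilityMeasure ν] {d m : ℕ}
    (D : β → (Fin d → ℤ)) (h : (Fin d → ℤ) →+ ℤ) (hm : 5 ≤ m) (z : Fin m → (Fin d → ℤ))
    (hli : LinearIndependent ℤ z) (hh : ∀ i, h (z i) = 0) (w : Fin d → ℤ)
    (hpos : ∀ eps : Fin m → Bool,
      ν {b | D b = w + ∑ i, if eps i then z i else 0} ≠ 0) :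
    ∃ ρ : ℕ → ℤ → ℝ≥0∞, (∑' n : ℕ, ((n : ℝ≥0∞) + 1) * ∑' k, ρ n k) ≠ ⊤ ∧ ∀ n x,
      (Measure.infinitePi fun _ : ℕ => ν) {s | ∑ i ∈ Finset.range n, D (s i) = x} ≤ ρ n (h x) := by
  have hD : Measurable D := fun s _ => MeasurableSet.of_discrete
  have hsum : ∑' g, ν (D ⁻¹' {g}) = 1 := by
    rw [← measure_iUnion (fun a b hab => Disjoint.preimage D (by simpa using hab))
      (fun g => hD (MeasurableSet.singleton g)), ← Set.preimage_iUnion,
      Set.iUnion_of_singleton, Set.preimage_univ, measure_univ]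
  have hinj : Function.Injective (comb z) := by
    intro a b hab
    funext i
    have h0 : ∑ i, (a i - b i) • z i = 0 := by
      simpa [comb, sub_smul, Finset.sum_sub_distrib, sub_eq_zero] using hab
    exact sub_eq_zero.1 (Fintype.linearIndependent_iff.1 hli _ h0 i)
  obtain ⟨μ', p, hp0, hpt, hpq, hle⟩ := exists_levelBd hsum h w z hinj hh hpos
  refine ⟨levelBd μ' p h w m, ?_, fun n x => iid_eq_mass ν D n x ▸ hle n x⟩
  simp only [tsum_levelBd, ← ENNReal.tsum_mul_left]
  rw [ENNReal.tsum_comm]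
  have : ∀ K : ℕ, (∑' (n : ℕ), ∑' y, ((n : ℝ≥0∞) + 1) * (rootBd K ^ m * rest μ' p n K y)) ≤
      ((K : ℝ≥0∞) + 1) * rootBd K ^ m * (p⁻¹ * p⁻¹) := fun K => by
    simp only [ENNReal.tsum_mul_left, mul_left_comm _ (rootBd K ^ m)]
    calc _ ≤ rootBd K ^ m * (((K : ℝ≥0∞) + 1) * (p⁻¹ * p⁻¹)) :=
          mul_le_mul_right (tsum_wrest_le hp0 hpt hpq K) _
      _ = _ := by ring
  refine ne_top_of_le_ne_top ?_ (ENNReal.tsum_le_tsum this)
  rw [ENNReal.tsum_mul_right]
  exact ENNReal.mul_ne_top (tsum_wrootBd_pow hm) (ENNReal.mul_ne_top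
    (ENNReal.inv_ne_top.2 hp0) (ENNReal.inv_ne_top.2 hp0))

end Vale.Agent.P147.Semi
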