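import Vale.Agent.P147.Speed.Prefix

/-!
Two independent concatenations of iid pieces started at the two ends of a third one of length `j`:
the probability that they meet is summable over `j` when the point masses of both kinds of sums
carry the weight `n + 1`.
-/

open MeasureTheory ProbabilityTheory Finset
open scoped ENNReal

namespace Vale.Agent.P147.Semi

open Vale.Agent.P147.Cond Vale.Agent.P147.Speed

variable {d : ℕ} {α β : Type*} [MeasurableSpace α] [MeasurableSpace β]
  (ν : Measure β) (X : β → Site d) (W : β → Finset (Site d)) (h : Site d →+ ℤ)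
  (νR : Measure α) (XR : α → Site d)
  [Countable α] [MeasurableSingletonClass α] [Countable β] [MeasurableSingletonClass β]
  [IsProbabilityMeasure νR] [IsProbabilityMeasure ν]

/-- The concatenation `s` meets the concatenation `c` moved to the end of the first `j` pieces of
`r`. -/
def MeetIid (j : ℕ) : Set ((ℕ → α) × ((ℕ → β) × (ℕ → β))) :=
  {x | ∃ z ∈ Occ X W x.2.1, ∃ z' ∈ Occ X W x.2.2, z = start XR x.1 j + z'}

/-- Coincidences of piece `i` of `s` with a translate of `c`. -/
noncomputable def hits (i : ℕ) (o : Site d) (s c : ℕ → β) : ℝ≥0∞ :=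
  ∑ w ∈ W (s i), ∑' p, ∑ w' ∈ W (c p),
    if start X s i + w = o + (start X c p + w') then 1 else 0

theorem measurable_hits (i : ℕ) :
    Measurable fun x : (Site d) × ((ℕ → β) × (ℕ → β)) => hits X W i x.1 x.2.1 x.2.2 := by
  have hg : ∀ p : ℕ, Measurable fun x : Site d × ((ℕ → β) × (ℕ → β)) =>
      ∑ w ∈ W (x.2.1 i), ∑ w' ∈ W (x.2.2 p),
        if start X x.2.1 i + w = x.1 + (start X x.2.2 p + w') then (1 : ℝ≥0∞) else 0 := fun p => by
    let G : Site d × ((Site d × β) × (Site d × β)) → ℝ≥0∞ := fun y =>
      ∑ w ∈ W y.2.1.2, ∑ w' ∈ W y.2.2.2,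
        if y.2.1.1 + w = y.1 + (y.2.2.1 + w') then (1 : ℝ≥0∞) else 0
    let L : (ℕ → β) → ℕ → Site d × β := fun c q => (start X c q, c q)
    let L2 : Site d × ((ℕ → β) × (ℕ → β)) → Site d × ((Site d × β) × (Site d × β)) := fun x =>
      (x.1, (L x.2.1 i, L x.2.2 p))
    have hL : ∀ q, Measurable fun c => L c q := fun q =>
      (measurable_start X q).prodMk (measurable_pi_apply q)
    have hL2 : Measurable L2 := measurable_fst.prodMk
      (((hL i).comp (measurable_fst.comp measurable_snd)).prodMk
        ((hL p).comp (measurable_snd.comp measurable_snd)))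
    have hG : Measurable G := measurable_of_countable G
    exact Measurable.comp (g := G) (f := L2) hG hL2
  have e : (fun x : Site d × ((ℕ → β) × (ℕ → β)) => hits X W i x.1 x.2.1 x.2.2) =
      fun x => ∑' p, ∑ w ∈ W (x.2.1 i), ∑ w' ∈ W (x.2.2 p),
        if start X x.2.1 i + w = x.1 + (start X x.2.2 p + w') then (1 : ℝ≥0∞) else 0 := by
    funext x
    rw [hits, Summable.tsum_finsetSum fun _ _ => ENNReal.summable]
  rw [e]
  exact Measurable.tsum hg

theorem measurable_hits_offset (i j : ℕ) :
    Measurable fun y : (ℕ → α) × ((ℕ → β) × (ℕ → β)) =>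
      hits X W i (start XR y.1 j) y.2.1 y.2.2 := by
  let g : Site d × ((ℕ → β) × (ℕ → β)) → ℝ≥0∞ := fun x => hits X W i x.1 x.2.1 x.2.2
  let f : (ℕ → α) × ((ℕ → β) × (ℕ → β)) → Site d × ((ℕ → β) × (ℕ → β)) := fun y =>
    (start XR y.1 j, y.2)
  have hg : Measurable g := measurable_hits X W i
  have hf : Measurable f := ((measurable_start XR j).comp measurable_fst).prodMk measurable_snd
  exact Measurable.comp (g := g) (f := f) hg hf

/-- Conditioning on the piece `i` of `s`: its start is spread out. -/
theorem lintegral_hits_le {rho : ℕ → ℤ → ℝ≥0∞}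
    (hrho : ∀ q x, iid ν {s | start X s q = x} ≤ rho q (h x))
    (hinj : ∀ᵐ c ∂iid ν, Function.Injective fun q => h (start X c q)) (i : ℕ) (o : Site d) :
    ∫⁻ x, hits X W i o x.1 x.2 ∂(iid ν).prod (iid ν) ≤
      (∫⁻ b, ((W b).card : ℝ≥0∞) ∂ν) * ((∫⁻ b, ((W b).card : ℝ≥0∞) ∂ν) * ∑' y, rho i y) := by
  set N := ∫⁻ b, ((W b).card : ℝ≥0∞) ∂ν
  have hm := (measurable_hits X W i).comp (measurable_const (a := o) |>.prodMk measurable_id)
  rw [lintegral_prod_symm _ (show Measurable fun x : (ℕ → β) × (ℕ → β) =>
    hits X W i o x.1 x.2 from hm).aemeasurable]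
  set ψ : ℤ → ℝ≥0∞ := fun y => ∫⁻ b, ∑ w ∈ W b, rho i (y - h w) ∂ν
  have hψ : ∑' y, ψ y ≤ N * ∑' y, rho i y := by
    simp only [ψ, N]
    rw [← lintegral_tsum fun y => (measurable_of_countable _).aemeasurable,
      ← lintegral_mul_const _ (measurable_of_countable _)]
    refine lintegral_mono fun b => ?_
    rw [Summable.tsum_finsetSum fun w _ => ENNReal.summable]
    refine (sum_le_card_nsmul _ _ (∑' y, rho i y) fun w _ => ?_).trans_eq (nsmul_eq_mul _ _)
    exact ((Equiv.subRight (h w)).tsum_eq fun y => rho i y).le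
  calc ∫⁻ c, ∫⁻ s, hits X W i o s c ∂iid ν ∂iid ν
      ≤ ∫⁻ c, ∑' p, ∑ w' ∈ W (c p), ψ (h o + (h (start X c p) + h w')) ∂iid ν := by
        refine lintegral_mono fun c => ?_
        unfold hits
        rw [lintegral_split ν X i fun x b =>
          ∑ w ∈ W b, ∑' p, ∑ w' ∈ W (c p), if x + w = o + (start X c p + w') then 1 else 0]
        have hmw : ∀ (w : Site d) (p : ℕ) (w' : Site d), Measurable fun s : ℕ → β =>
            if start X s i + w = o + (start X c p + w') then (1 : ℝ≥0∞) else 0 := fun w p w' =>
          (measurable_of_countable fun x : Site d =>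
            if x + w = o + (start X c p + w') then (1 : ℝ≥0∞) else 0).comp (measurable_start X i)
        calc _ = ∫⁻ b, ∑ w ∈ W b, ∑' p, ∑ w' ∈ W (c p), ∫⁻ s,
              (if start X s i + w = o + (start X c p + w') then 1 else 0) ∂iid ν ∂ν := by
              refine lintegral_congr fun b => ?_
              rw [lintegral_finsetSum' _ fun w _ => (Measurable.tsum fun p =>
                Finset.measurable_sum _ fun w' _ => hmw w p w').aemeasurable]
              refine sum_congr rfl fun w _ => ?_
              rw [lintegral_tsum fun p =>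
                (Finset.measurable_sum _ fun w' _ => hmw w p w').aemeasurable]
              exact tsum_congr fun p =>
                lintegral_finsetSum' _ fun w' _ => (hmw w p w').aemeasurable
          _ ≤ ∫⁻ b, ∑' p, ∑ w' ∈ W (c p), ∑ w ∈ W b,
              rho i (h o + (h (start X c p) + h w') - h w) ∂ν := by
              refine lintegral_mono fun b => ?_
              dsimp only
              rw [← Summable.tsum_finsetSum fun _ _ => ENNReal.summable]
              refine ENNReal.tsum_le_tsum fun p => ?_
              rw [sum_comm]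
              refine sum_le_sum fun w' _ => sum_le_sum fun w _ => ?_
              set x0 := o + (start X c p + w') - w
              have hs : MeasurableSet {s : ℕ → β | start X s i = x0} :=
                measurable_start X i (measurableSet_singleton _)
              calc ∫⁻ s, (if start X s i + w = o + (start X c p + w') then 1 else 0) ∂iid ν
                  = ∫⁻ s, {s : ℕ → β | start X s i = x0}.indicator 1 s ∂iid ν :=
                    lintegral_congr fun s => by
                      simp [x0, Set.indicator_apply, eq_sub_iff_add_eq]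
                _ ≤ rho i (h x0) := by rw [lintegral_indicator_one hs]; exact hrho _ _
                _ = _ := by simp [x0]
          _ = _ := by
              rw [lintegral_tsum fun p => (measurable_of_countable _).aemeasurable]
              exact tsum_congr fun p =>
                lintegral_finsetSum' _ fun w' _ => (measurable_of_countable _).aemeasurable
    _ ≤ N * ∑' y, ψ y := lintegral_heights_le h ν X W hinj (h o) ψ
    _ ≤ _ := mul_le_mul_right hψ _

omit [MeasurableSpace β] [Countable β] [MeasurableSingletonClass β] [IsProbabilityMeasure νR] in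
/-- With both walks fixed, a spread out offset makes coincidences at a level rare. -/
theorem lintegral_hits_fix_le {rho : ℕ → ℤ → ℝ≥0∞}
    (hrho : ∀ q x, iid νR {r | start XR r q = x} ≤ rho q (h x)) (i j : ℕ) (s c : ℕ → β) :
    ∫⁻ r, hits X W i (start XR r j) s c ∂iid νR ≤
      ∑ w ∈ W (s i), ∑' p, ∑ w' ∈ W (c p),
        rho j (h (start X s i + w) - (h (start X c p) + h w')) := by
  unfold hits
  have hmw : ∀ (w : Site d) (p : ℕ) (w' : Site d), Measurable fun r : ℕ → α =>
      if start X s i + w = start XR r j + (start X c p + w') then (1 : ℝ≥0∞) else 0 :=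
    fun w p w' => (measurable_of_countable fun x : Site d =>
      if start X s i + w = x + (start X c p + w') then (1 : ℝ≥0∞) else 0).comp
      (measurable_start XR j)
  rw [lintegral_finsetSum' _ fun w _ => (Measurable.tsum fun p =>
    Finset.measurable_sum _ fun w' _ => hmw w p w').aemeasurable]
  refine sum_le_sum fun w _ => ?_
  rw [lintegral_tsum fun p => (Finset.measurable_sum _ fun w' _ => hmw w p w').aemeasurable]
  refine ENNReal.tsum_le_tsum fun p => ?_
  rw [lintegral_finsetSum' _ fun w' _ => (hmw w p w').aemeasurable]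
  refine sum_le_sum fun w' _ => ?_
  set x0 := start X s i + w - (start X c p + w')
  have hs : MeasurableSet {r : ℕ → α | start XR r j = x0} :=
    measurable_start XR j (measurableSet_singleton _)
  calc ∫⁻ r, (if start X s i + w = start XR r j + (start X c p + w') then 1 else 0)
        ∂iid νR
      = ∫⁻ r, {r : ℕ → α | start XR r j = x0}.indicator 1 r ∂iid νR :=
        lintegral_congr fun r => by
          simp [x0, Set.indicator_apply, eq_sub_iff_add_eq, eq_comm]
    _ ≤ rho j (h x0) := by rw [lintegral_indicator_one hs]; exact hrho _ _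
    _ = _ := by simp [x0]

/-- Conditioning on the offset: it is spread out. -/
theorem lintegral_hits_offset_le {rho : ℕ → ℤ → ℝ≥0∞}
    (hrho : ∀ q x, iid νR {r | start XR r q = x} ≤ rho q (h x))
    (hinj : ∀ᵐ c ∂iid ν, Function.Injective fun q => h (start X c q)) (i j : ℕ) :
    ∫⁻ x, ∫⁻ r, hits X W i (start XR r j) x.1 x.2 ∂iid νR ∂(iid ν).prod (iid ν) ≤
      (∫⁻ b, ((W b).card : ℝ≥0∞) ∂ν) * ((∫⁻ b, ((W b).card : ℝ≥0∞) ∂ν) * ∑' y, rho j y) := by
  set N := ∫⁻ b, ((W b).card : ℝ≥0∞) ∂ν
  set S := ∑' y, rho j y
  have hM : Measurable fun y : (ℕ → α) × ((ℕ → β) × (ℕ → β)) =>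
      hits X W i (start XR y.1 j) y.2.1 y.2.2 := measurable_hits_offset X W XR i j
  rw [lintegral_prod _ hM.lintegral_prod_left'.aemeasurable]
  calc ∫⁻ s, ∫⁻ c, ∫⁻ r, hits X W i (start XR r j) s c ∂iid νR ∂iid ν ∂iid ν
      ≤ ∫⁻ s, ((W (s i)).card : ℝ≥0∞) * (N * S) ∂iid ν := by
        refine lintegral_mono fun s => ?_
        refine (lintegral_mono fun c =>
          lintegral_hits_fix_le X W h νR XR hrho i j s c).trans ?_
        have hmp : ∀ w, Measurable fun c : ℕ → β => ∑' p, ∑ w' ∈ W (c p),
            rho j (h (start X s i + w) - (h (start X c p) + h w')) := fun w =>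
          Measurable.tsum fun p => Measurable.comp
            (g := fun y : Site d × β =>
              ∑ w' ∈ W y.2, rho j (h (start X s i + w) - (h y.1 + h w')))
            (f := fun c : ℕ → β => (start X c p, c p)) (measurable_of_countable _)
            ((measurable_start X p).prodMk (measurable_pi_apply p))
        rw [lintegral_finsetSum' _ fun w _ => (hmp w).aemeasurable]
        refine (sum_le_card_nsmul _ _ (N * S) fun w _ => ?_).trans_eq (nsmul_eq_mul _ _)
        refine le_of_eq_of_le ?_ ((lintegral_heights_le h ν X W hinj (-h (start X s i + w))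
          fun y => rho j (-y)).trans_eq ?_)
        · refine lintegral_congr fun c => tsum_congr fun p => sum_congr rfl fun w' _ => ?_
          congr 1; ring
        · congr 1
          exact (Equiv.neg ℤ).tsum_eq fun y => rho j y
    _ = _ := by
        have hc : Measurable fun s : ℕ → β => ((W (s i)).card : ℝ≥0∞) :=
          Measurable.comp (g := fun b : β => ((W b).card : ℝ≥0∞)) (f := fun s : ℕ → β => s i)
            (measurable_of_countable _) (measurable_pi_apply i)
        rw [lintegral_mul_const _ hc]
        congr 1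
        calc ∫⁻ s, ((W (s i)).card : ℝ≥0∞) ∂iid ν
            = ∫⁻ b, ((W b).card : ℝ≥0∞) ∂(iid ν).map (fun s => s i) :=
              (lintegral_map (f := fun b : β => ((W b).card : ℝ≥0∞)) (g := fun s : ℕ → β => s i)
                (measurable_of_countable _) (measurable_pi_apply i)).symm
          _ = N := by
              rw [show ((iid ν).map fun s => s i) = ν from Measure.infinitePi_map_eval _ i]

/-- The meeting probabilities are summable over the offsets. -/
theorem tsum_meet_ne_top {rho rho' : ℕ → ℤ → ℝ≥0∞}
    (hrho : ∀ q x, iid ν {s | start X s q = x} ≤ rho q (h x))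
    (hsum : (∑' n : ℕ, ((n : ℝ≥0∞) + 1) * ∑' y, rho n y) ≠ ⊤)
    (hrho' : ∀ q x, iid νR {r | start XR r q = x} ≤ rho' q (h x))
    (hsum' : (∑' n : ℕ, ((n : ℝ≥0∞) + 1) * ∑' y, rho' n y) ≠ ⊤)
    (hinj : ∀ᵐ c ∂iid ν, Function.Injective fun q => h (start X c q))
    (hN : ∫⁻ b, ((W b).card : ℝ≥0∞) ∂ν ≠ ⊤) :
    ∑' j, ((iid νR).prod ((iid ν).prod (iid ν))) (MeetIid X W XR j) ≠ ⊤ := by
  set N := ∫⁻ b, ((W b).card : ℝ≥0∞) ∂ν
  set A := fun n => ∑' y, rho n y
  set B := fun n => ∑' y, rho' n y
  have hbound : ∀ j, ((iid νR).prod ((iid ν).prod (iid ν))) (MeetIid X W XR j) ≤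
      ∑' i, N * (N * (if j ≤ i then A i else B j)) := by
    intro j
    let F : ℕ → (ℕ → α) × ((ℕ → β) × (ℕ → β)) → ℝ≥0∞ := fun i y =>
      hits X W i (start XR y.1 j) y.2.1 y.2.2
    have hF : ∀ i, Measurable (F i) := fun i => measurable_hits_offset X W XR i j
    calc _ ≤ ((iid νR).prod ((iid ν).prod (iid ν))) {y | 1 ≤ ∑' i, F i y} := by
          refine measure_mono ?_
          rintro y ⟨z, ⟨i, w, hw, rfl⟩, z', ⟨p, w', hw', rfl⟩, he⟩
          refine le_trans ?_ (ENNReal.le_tsum i)
          refine le_trans ?_ (single_le_sum (fun _ _ => zero_le) hw)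
          refine le_trans ?_ (ENNReal.le_tsum p)
          refine le_trans ?_ (single_le_sum (fun _ _ => zero_le) hw')
          rw [if_pos]
          exact he
      _ ≤ ∫⁻ y, ∑' i, F i y ∂(iid νR).prod ((iid ν).prod (iid ν)) := by
          have := mul_meas_ge_le_lintegral₀ (μ := (iid νR).prod ((iid ν).prod (iid ν)))
            (f := fun y => ∑' i, F i y) (Measurable.tsum hF).aemeasurable 1
          rwa [one_mul] at this
      _ = ∑' i, ∫⁻ y, F i y ∂(iid νR).prod ((iid ν).prod (iid ν)) :=
          lintegral_tsum fun i => (hF i).aemeasurable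
      _ ≤ _ := by
          refine ENNReal.tsum_le_tsum fun i => ?_
          split_ifs with hji
          · rw [lintegral_prod _ (hF i).aemeasurable]
            refine (lintegral_mono fun r =>
              lintegral_hits_le ν X W h hrho hinj i (start XR r j)).trans_eq ?_
            rw [lintegral_const, measure_univ, mul_one]
          · rw [lintegral_prod_symm _ (hF i).aemeasurable]
            exact lintegral_hits_offset_le ν X W h νR XR hrho' hinj i j
  refine ne_top_of_le_ne_top ?_ (ENNReal.tsum_le_tsum hbound)
  have hsplit : ∀ j i : ℕ, N * (N * (if j ≤ i then A i else B j)) ≤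
      N * N * ((if j ≤ i then A i else 0) + (if i < j then B j else 0)) := fun j i => by
    by_cases h1 : j ≤ i
    · simp [h1, not_lt.2 h1, mul_assoc]
    · simp [h1, not_le.1 h1, mul_assoc]
  refine ne_top_of_le_ne_top ?_
    (ENNReal.tsum_le_tsum fun j => ENNReal.tsum_le_tsum fun i => hsplit j i)
  simp only [ENNReal.tsum_mul_left, ENNReal.tsum_add]
  refine ENNReal.mul_ne_top (ENNReal.mul_ne_top hN hN) (ENNReal.add_ne_top.2 ⟨?_, ?_⟩)
  · rw [ENNReal.tsum_comm]
    refine ne_top_of_le_ne_top hsum (le_of_eq (tsum_congr fun i => ?_))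
    rw [tsum_eq_sum (s := range (i + 1)) fun j hj => if_neg (by simpa using hj)]
    rw [sum_congr rfl fun j hj => if_pos (by simpa using hj), sum_const, card_range, nsmul_eq_mul]
    push_cast
    rfl
  · refine ne_top_of_le_ne_top hsum' (ENNReal.tsum_le_tsum fun j => ?_)
    rw [tsum_eq_sum (s := range j) fun i hi => if_neg (by simpa using hi)]
    rw [sum_congr rfl fun i hi => if_pos (mem_range.1 hi), sum_const, card_range, nsmul_eq_mul]
    exact mul_le_mul_left (le_self_add) _

/-- Two concatenations meet, the second one started at `z`. -/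
def MeetPair (z : Site d) : Set ((ℕ → β) × (ℕ → β)) :=
  {x | ∃ a ∈ Occ X W x.1, ∃ b ∈ Occ X W x.2, a = z + b}

theorem measurableSet_meetPair (z : Site d) : MeasurableSet (MeetPair X W z) := by
  have e : MeetPair X W z = ⋃ b : Site d,
      {x : (ℕ → β) × (ℕ → β) | z + b ∈ Occ X W x.1} ∩ {x | b ∈ Occ X W x.2} := by
    ext x
    simp [MeetPair, and_comm]
  rw [e]
  exact .iUnion fun b => ((measurableSet_mem_occ X W (z + b)).preimage measurable_fst).inter
    ((measurableSet_mem_occ X W b).preimage measurable_snd)

theorem measurableSet_meetIid (j : ℕ) : MeasurableSet (MeetIid X W XR j) := by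
  have e : MeetIid X W XR j = ⋃ z : Site d,
      ((fun r : ℕ → α => start XR r j) ⁻¹' {z}) ×ˢ MeetPair X W z := by
    ext x
    simp [MeetIid, MeetPair]
  rw [e]
  exact .iUnion fun z => (measurable_start XR j (measurableSet_singleton z)).prod
    (measurableSet_meetPair X W z)

end Vale.Agent.P147.Semi
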