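import Vale.Agent.P147.Semi.Defs
import Vale.Agent.P147.Semi.MeetIid
import Vale.Agent.P147.Semi.Coins
import Vale.Agent.P147.Speed.Opposite

/-!
Two independent downward walks from two regeneration sites of an upward walk: the expected number
of pairs, among the first `m` sites, whose walks meet is linear in `m`; and the number of sites a
downward walk visits in a band of heights is linear in its width.
-/

open MeasureTheory Filter Finset
open scoped ENNReal

namespace Vale.Agent.P147.Semi

open Vale.Agent.P147.Cond Vale.Agent.P147.Dir Vale.Agent.P147.Dir.Blocks Vale.Agent.P147.Glue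
open Vale.Agent.P147.Speed

variable {d k : ℕ} [NeZero k] (v : Fin k → Site d) (μ : Measure (Row k)) [IsProbabilityMeasure μ]

omit [NeZero k] in
theorem neg_lvl (l : Fin d → ℤ) : -lvl l = lvl (-l) := by
  ext x
  simp [lvl, dot]

omit [NeZero k] in
theorem lev_eq_hi (l : Fin d → ℤ) (z : Site d) : lev l z = hi l z := rfl

theorem ae_heights_injective (l : Fin d → ℤ) (hq : law v μ (StayUp v (-lvl l)) ≠ 0) :
    ∀ᵐ c ∂iid ((upLaw v μ (-lvl l)).map (blk0 v (-lvl l))),
      Function.Injective fun q => hi l (start (disp v) c q) := by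
  rw [neg_lvl] at hq ⊢
  have := isProb_upLaw v μ _ hq
  have : IsProbabilityMeasure ((upLaw v μ (lvl (-l))).map (blk0 v (lvl (-l)))) :=
    Measure.isProbabilityMeasure_map (meas_blk0 v _).aemeasurable
  have hneg : ∀ x, hi (-l) x = -hi l x := fun x => by simp [hi]
  have h1 : ∀ᵐ c ∂iid ((upLaw v μ (lvl (-l))).map (blk0 v (lvl (-l)))),
      ∀ i : ℕ, 0 < hi (-l) (disp v (c i)) := ae_all_iff.2 fun i =>
    (measurePreserving_eval_infinitePi
      (fun _ : ℕ => (upLaw v μ (lvl (-l))).map (blk0 v (lvl (-l)))) i).quasiMeasurePreserving.ae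
      ((ae_block_facts v μ (-l) hq).mono fun b hb => hb.1)
  filter_upwards [h1] with c hc
  refine (strictAnti_nat_of_succ_lt fun q => ?_).injective
  simp only [start, sum_range_succ, map_add]
  linarith [hc q, hneg (disp v (c q))]

/-- Sites visited in a band of heights by a downward walk. -/
theorem exists_occ_bound (l : Fin d → ℤ) (hq : law v μ (StayUp v (-lvl l)) ≠ 0)
    (hcard : ∫⁻ t, ((futW v (blk0 v (-lvl l) t)).card : ℝ≥0∞) ∂upLaw v μ (-lvl l) ≠ ⊤) :
    ∃ C : ℝ≥0∞, C ≠ ⊤ ∧ ∀ (M N : ℕ) (x : Site d),
      (N : ℝ≥0∞) * upLaw v μ (-lvl l) (Occ' v l M N x)ᶜ ≤ C * M := by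
  classical
  set ht := -lvl l with hht
  have := isProb_upLaw v μ ht hq
  set ν := (upLaw v μ ht).map (blk0 v ht)
  have : IsProbabilityMeasure ν := Measure.isProbabilityMeasure_map (meas_blk0 v ht).aemeasurable
  have hΦ : Measurable fun (t : ℕ → Fin k) (i : ℕ) => block v ht i t :=
    measurable_pi_lambda _ fun i => measurable_block v ht i
  have hN : ∫⁻ b, ((futW v b).card : ℝ≥0∞) ∂ν =
      ∫⁻ t, ((futW v (blk0 v ht t)).card : ℝ≥0∞) ∂upLaw v μ ht :=
    lintegral_map (f := fun b : Blk k => ((futW v b).card : ℝ≥0∞))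
      (measurable_of_countable _) (meas_blk0 v ht)
  refine ⟨_, hN ▸ hcard, fun M N x => ?_⟩
  let ψ : ℤ → ℝ≥0∞ := fun y => if 0 ≤ y ∧ y < M then 1 else 0
  have hψ : ∑' y, ψ y = M := by
    rw [tsum_eq_sum (s := Finset.Ico (0 : ℤ) M) fun y hy => if_neg (by simpa using hy),
      sum_congr rfl fun y hy => if_pos (by simpa using hy), sum_const, nsmul_eq_mul, mul_one]
    simp
  let F : (ℕ → Blk k) → ℝ≥0∞ := fun c =>
    ∑' p, ∑ w ∈ futW v (c p), ψ (hi l x + (hi l (start (disp v) c p) + hi l w))
  have hFm : Measurable F := Measurable.tsum fun p => Measurable.comp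
    (g := fun y : Site d × Blk k => ∑ w ∈ futW v y.2, ψ (hi l x + (hi l y.1 + hi l w)))
    (f := fun c : ℕ → Blk k => (start (disp v) c p, c p)) (measurable_of_countable _)
    ((measurable_start (disp v) p).prodMk (measurable_pi_apply p))
  calc (N : ℝ≥0∞) * upLaw v μ ht (Occ' v l M N x)ᶜ
      ≤ (N : ℝ≥0∞) * upLaw v μ ht {t | (N : ℝ≥0∞) ≤ F fun i => block v ht i t} := by
        refine mul_le_mul_right (measure_mono_ae ?_) _
        filter_upwards [regTime_reg v μ ht hq] with t hr
        intro hbad
        obtain ⟨G, hG, hGN⟩ : ∃ G : Finset (Site d),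
            (∀ z ∈ G, (0 ≤ lev l z ∧ lev l z < M) ∧ ∃ i, x + pos v t i = z) ∧ N < G.card := by
          by_contra hno
          exact hbad fun G hG => not_lt.1 fun hlt => hno ⟨G, hG, hlt⟩
        show (N : ℝ≥0∞) ≤ F fun i => block v ht i t
        set c : ℕ → Blk k := fun i => block v ht i t
        calc (N : ℝ≥0∞) ≤ ∑ z ∈ G, (1 : ℝ≥0∞) := by
              rw [sum_const, nsmul_eq_mul, mul_one]
              exact_mod_cast hGN.le
          _ ≤ ∑ z ∈ G, ∑' p, ∑ w ∈ futW v (c p),
              if x + (start (disp v) c p + w) = z then ψ (hi l z) else 0 := by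
              refine sum_le_sum fun z hz => ?_
              obtain ⟨hlev, i, hi'⟩ := hG z hz
              obtain ⟨p, w, hw, hpw⟩ := pos_mem_futOcc hr i
              refine le_trans ?_ (ENNReal.le_tsum p)
              refine le_trans ?_ (single_le_sum (fun _ _ => zero_le) hw)
              have e : x + (start (disp v) c p + w) = z := by rw [← hi', ← hpw]; rfl
              rw [if_pos e, show ψ (hi l z) = 1 from if_pos hlev]
          _ = ∑' p, ∑ w ∈ futW v (c p), ∑ z ∈ G,
              if x + (start (disp v) c p + w) = z then ψ (hi l z) else 0 := by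
              rw [← Summable.tsum_finsetSum fun _ _ => ENNReal.summable]
              exact tsum_congr fun p => sum_comm
          _ ≤ F c := by
              refine ENNReal.tsum_le_tsum fun p => sum_le_sum fun w _ => ?_
              rw [sum_ite_eq]
              split_ifs
              · simp
              · exact zero_le
    _ = (N : ℝ≥0∞) * iid ν {c | (N : ℝ≥0∞) ≤ F c} := by
        rw [show iid ν = (upLaw v μ ht).map fun t i => block v ht i t from
          (map_block v μ ht hq).symm, Measure.map_apply hΦ (measurableSet_le measurable_const hFm)]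
        rfl
    _ ≤ ∫⁻ c, F c ∂iid ν := mul_meas_ge_le_lintegral₀ hFm.aemeasurable _
    _ ≤ (∫⁻ b, ((futW v b).card : ℝ≥0∞) ∂ν) * ∑' y, ψ y :=
        lintegral_heights_le (hi l) ν (disp v) (futW v) (ae_heights_injective v μ l hq) (hi l x) ψ
    _ = _ := by rw [hN, hψ]

/-- Pairs of regeneration sites among the first `m` from which two downward walks meet. -/
theorem exists_meet_bound (hd : 6 ≤ d) (hell : ∀ i, ∀ᵐ p ∂μ, 0 < (p : Row k).1 i)
    (hunit : ∀ j, (∃ i, v i = Pi.single j 1) ∧ ∃ i, v i = Pi.single j (-1))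
    (l : Fin d → ℤ) (hp : law v μ (StayUp v (lvl l)) ≠ 0)
    (hq : law v μ (StayUp v (-lvl l)) ≠ 0)
    (hcard : ∫⁻ t, ((futW v (blk0 v (-lvl l) t)).card : ℝ≥0∞) ∂upLaw v μ (-lvl l) ≠ ⊤) :
    ∃ C : ℝ≥0∞, C ≠ ⊤ ∧ ∀ m : ℕ,
      ∫⁻ t, (∑ i ∈ range m, ∑ j ∈ range m,
        ((upLaw v μ (-lvl l)).prod (upLaw v μ (-lvl l)))
          (Meet v (pos v t (regTime v (lvl l) j t) - pos v t (regTime v (lvl l) i t))))
        ∂upLaw v μ (lvl l) ≤ C * m := by
  classical
  set ht := lvl l with hht
  have := isProb_upLaw v μ ht hp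
  have := isProb_upLaw v μ (-ht) hq
  set νR := (upLaw v μ ht).map (blk0 v ht) with hνR
  set ν := (upLaw v μ (-ht)).map (blk0 v (-ht)) with hν
  have : IsProbabilityMeasure νR :=
    Measure.isProbabilityMeasure_map (meas_blk0 v ht).aemeasurable
  have : IsProbabilityMeasure ν :=
    Measure.isProbabilityMeasure_map (meas_blk0 v (-ht)).aemeasurable
  have hNν : ∫⁻ b, ((futW v b).card : ℝ≥0∞) ∂ν ≠ ⊤ := by
    rw [hν, lintegral_map (f := fun b : Blk k => ((futW v b).card : ℝ≥0∞))
      (measurable_of_countable _) (meas_blk0 v (-ht))]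
    exact hcard
  obtain ⟨rho', hsum', hrho'⟩ : ∃ rho : ℕ → ℤ → ℝ≥0∞,
      (∑' n : ℕ, ((n : ℝ≥0∞) + 1) * ∑' y, rho n y) ≠ ⊤ ∧
      ∀ q x, iid νR {r | start (disp v) r q = x} ≤ rho q (hi l x) := by
    obtain ⟨w, z, hli, hz, hz'⟩ := exists_coins v μ (l := l) hell hunit hp
    refine exists_weighted_bound νR (disp v) (hi l) (by omega) z hli hz w fun eps h0 => ?_
    refine hz' eps (measure_mono_null (fun b hb => ?_) h0)
    show disp v b = _
    rw [show disp v b = _ from hb, sum_filter]
  obtain ⟨rho, hsum, hrho⟩ : ∃ rho : ℕ → ℤ → ℝ≥0∞,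
      (∑' n : ℕ, ((n : ℝ≥0∞) + 1) * ∑' y, rho n y) ≠ ⊤ ∧
      ∀ q x, iid ν {r | start (disp v) r q = x} ≤ rho q (hi l x) := by
    have hq' : law v μ (StayUp v (dot fun j => (((-l) j : ℤ) : ℝ))) ≠ 0 := by
      rw [hht, neg_lvl] at hq; exact hq
    obtain ⟨w, z, hli, hz, hz'⟩ := exists_coins v μ (l := -l) hell hunit hq'
    refine exists_weighted_bound ν (disp v) (hi l) (by omega) z hli (fun i => ?_) w
      fun eps h0 => ?_
    · have := hz i
      simpa [hi] using this
    · refine hz' eps ?_
      rw [hν, hht, neg_lvl] at h0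
      refine measure_mono_null (fun b hb => ?_) h0
      show disp v b = _
      rw [show disp v b = _ from hb, sum_filter]
  set π := iid νR with hπ
  set P := fun r => (π.prod ((iid ν).prod (iid ν)))
    (Semi.MeetIid (disp v) (futW v) (disp v) r) with hP
  have hC : ∑' r, P r ≠ ⊤ := tsum_meet_ne_top ν (disp v) (futW v) (hi l) νR (disp v) hrho hsum
    hrho' hsum' (ae_heights_injective v μ l hq) hNν
  set U := (upLaw v μ (-ht)).prod (upLaw v μ (-ht))
  let g : Site d → ℝ≥0∞ := fun z => U (Meet v z)
  have hsymm : ∀ z, g (-z) = g z := by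
    intro z
    have e : Meet v (-z) = Prod.swap ⁻¹' Meet v z := by
      ext x
      simp only [Meet, Set.mem_ofPred_eq, Set.mem_preimage, Prod.fst_swap, Prod.snd_swap]
      constructor
      · rintro ⟨i, j, h⟩; exact ⟨j, i, by rw [h]; abel⟩
      · rintro ⟨i, j, h⟩; exact ⟨j, i, by rw [h]; abel⟩
    show U (Meet v (-z)) = U (Meet v z)
    rw [e, ← Measure.map_apply measurable_swap (measurableSet_meet v z), Measure.prod_swap]
  have hΦ : ∀ ht : Site d →+ ℝ, Measurable fun (t : ℕ → Fin k) (i : ℕ) => block v ht i t :=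
    fun ht => measurable_pi_lambda _ fun i => measurable_block v ht i
  let T : (ℕ → Fin k) × (ℕ → Fin k) → (ℕ → Blk k) × (ℕ → Blk k) := fun x =>
    (fun i => block v (-ht) i x.1, fun i => block v (-ht) i x.2)
  have hT : U.map T = (iid ν).prod (iid ν) := by
    rw [show T = Prod.map (fun t i => block v (-ht) i t) (fun t i => block v (-ht) i t) from rfl,
      ← Measure.map_prod_map _ _ (hΦ _) (hΦ _), map_block v μ (-ht) hq]
  have hgle : ∀ z, g z ≤ ((iid ν).prod (iid ν)) (MeetPair (disp v) (futW v) z) := by
    intro z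
    have hr := regTime_reg v μ (-ht) hq
    have hTm : Measurable T :=
      ((hΦ (-ht)).comp measurable_fst).prodMk ((hΦ (-ht)).comp measurable_snd)
    rw [← hT, Measure.map_apply hTm (measurableSet_meetPair _ _ z)]
    refine measure_mono_ae ?_
    filter_upwards [Measure.quasiMeasurePreserving_fst.ae hr,
      Measure.quasiMeasurePreserving_snd.ae hr] with x h1 h2
    rintro ⟨i, j, hij⟩
    exact ⟨_, pos_mem_futOcc h1 i, _, pos_mem_futOcc h2 j, hij⟩
  have hle : ∀ i r : ℕ, ∫⁻ t, g (pos v t (regTime v ht (i + r) t) - pos v t (regTime v ht i t))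
      ∂upLaw v μ ht ≤ P r := by
    intro i r
    have hmp := measurePreserving_reindex νR (σ := fun p => i + p) (add_right_injective i)
    have hm : ((upLaw v μ ht).map fun t p => block v ht (i + p) t) = π := by
      rw [hπ, show iid νR = Measure.infinitePi (fun _ : ℕ => νR) from rfl]
      conv_rhs => rw [← hmp.map_eq, ← map_block v μ ht hp, Measure.map_map hmp.measurable (hΦ _)]
      rfl
    have hg : Measurable fun s : ℕ → Blk k => g (start (disp v) s r) :=
      Measurable.comp (g := g) (f := fun s : ℕ → Blk k => start (disp v) s r)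
        (measurable_of_countable _) (measurable_start (disp v) r)
    calc ∫⁻ t, g (pos v t (regTime v ht (i + r) t) - pos v t (regTime v ht i t)) ∂upLaw v μ ht
        = ∫⁻ t, g (start (disp v) (fun p => block v ht (i + p) t) r) ∂upLaw v μ ht := by
          refine lintegral_congr_ae ?_
          filter_upwards [regTime_reg v μ ht hp] with t hr
          suffices hs : ∀ r', pos v t (regTime v ht (i + r') t) - pos v t (regTime v ht i t) =
              start (disp v) (fun p => block v ht (i + p) t) r' by rw [hs r]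
          intro r'
          induction r' with
          | zero => simp [start]
          | succ r' ih =>
            simp only [start, sum_range_succ] at ih ⊢
            rw [← ih, disp_block hr, ← add_assoc]
            abel
      _ = ∫⁻ s, g (start (disp v) s r) ∂π := by
          rw [← hm, lintegral_map hg (measurable_pi_lambda _ fun p => measurable_block v ht _)]
      _ ≤ ∫⁻ s, ((iid ν).prod (iid ν)) (MeetPair (disp v) (futW v) (start (disp v) s r)) ∂π :=
          lintegral_mono fun s => hgle _
      _ = P r := by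
          simp only [hP]
          rw [Measure.prod_apply (measurableSet_meetIid _ _ _ r)]
          rfl
  refine ⟨∑' r, P r + ∑' r, P r, ENNReal.add_ne_top.2 ⟨hC, hC⟩, fun m => ?_⟩
  have hgm : ∀ i j : ℕ, Measurable fun t : ℕ → Fin k =>
      g (pos v t (regTime v ht j t) - pos v t (regTime v ht i t)) := fun i j => by
    have hp : Measurable fun x : (ℕ → Fin k) × ℕ => pos v x.1 x.2 :=
      measurable_from_prod_countable_left fun q => measurable_pos v q
    have h1 : ∀ q, Measurable fun t : ℕ → Fin k => pos v t (regTime v ht q t) := fun q =>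
      Measurable.comp (g := fun x : (ℕ → Fin k) × ℕ => pos v x.1 x.2)
        (f := fun t : ℕ → Fin k => (t, regTime v ht q t)) hp
        (measurable_id.prodMk (meas_regTime v ht q))
    exact Measurable.comp (g := g)
      (f := fun t : ℕ → Fin k => pos v t (regTime v ht j t) - pos v t (regTime v ht i t))
      (measurable_of_countable _) ((h1 j).sub (h1 i))
  rw [lintegral_finsetSum' _ fun i _ =>
    (Finset.measurable_sum _ fun j _ => hgm i j).aemeasurable]
  refine (sum_le_card_nsmul _ _ (∑' r, P r + ∑' r, P r) fun i _ => ?_).trans_eq ?_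
  · rw [lintegral_finsetSum' _ fun j _ => (hgm i j).aemeasurable]
    refine (sum_le_sum (g := fun j => P (j - i) * (if i ≤ j then 1 else 0) +
      P (i - j) * (if j ≤ i then 1 else 0)) fun j _ => ?_).trans ?_
    · rcases le_total i j with hij | hij
      · refine le_trans ?_ le_self_add
        rw [if_pos hij, mul_one]
        calc _ = ∫⁻ t, g (pos v t (regTime v ht (i + (j - i)) t) -
              pos v t (regTime v ht i t)) ∂upLaw v μ ht := by rw [Nat.add_sub_cancel' hij]
          _ ≤ _ := hle i (j - i)
      · refine le_trans ?_ le_add_self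
        rw [if_pos hij, mul_one]
        calc _ = ∫⁻ t, g (pos v t (regTime v ht (j + (i - j)) t) -
              pos v t (regTime v ht j t)) ∂upLaw v μ ht := by
              rw [Nat.add_sub_cancel' hij]
              exact lintegral_congr fun t => by rw [← hsymm, neg_sub]
          _ ≤ _ := hle j (i - j)
    · rw [sum_add_distrib]
      gcongr
      · simp only [mul_ite, mul_one, mul_zero, ← sum_filter]
        rw [← sum_image (f := P) (g := fun j => j - i) (fun a ha b hb h => by
          simp only [coe_filter, Set.mem_ofPred_eq] at ha hb h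
          omega)]
        exact ENNReal.sum_le_tsum _
      · simp only [mul_ite, mul_one, mul_zero, ← sum_filter]
        rw [← sum_image (f := P) (g := fun j => i - j) (fun a ha b hb h => by
          simp only [coe_filter, Set.mem_ofPred_eq] at ha hb h
          omega)]
        exact ENNReal.sum_le_tsum _
  · rw [card_range, nsmul_eq_mul, mul_comm]

end Vale.Agent.P147.Semi
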