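import Vale.Agent.P147.Semi.Pointwise
import Vale.Agent.P147.Dir.Paths

/-!
P147, a nonzero velocity forces the zero-one law: the contradiction. The cuts are `o(m)` in
number, while fresh walks from `m` regeneration sites need a number of order `m`.
-/

open MeasureTheory Filter Finset
open scoped ENNReal Topology

namespace Vale.Agent.P147.Semi

open Vale.Agent.P147.Cond Vale.Agent.P147.Dir Vale.Agent.P147.Dir.Blocks Vale.Agent.P147.Glue

variable {d k : ℕ} [NeZero k] (v : Fin k → Site d) (μ : Measure (Row k)) [IsProbabilityMeasure μ]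
  (l : Fin d → ℤ)

/-- The height after `m` regenerations has mean at most a multiple of `m`. -/
theorem exists_height_bound (hp : law v μ (StayUp v (lvl l)) ≠ 0) :
    ∃ H : ℝ≥0∞, H ≠ ∞ ∧ ∀ (A m : ℕ), ((A * m : ℕ) : ℝ≥0∞) *
      upLaw v μ (lvl l) {t | ((A * m : ℕ) : ℤ) ≤ lev l (pos v t (regTime v (lvl l) m t))} ≤
      H * m := by
  have := isProb_upLaw v μ (lvl l) hp
  set ν := (upLaw v μ (lvl l)).map (blk0 v (lvl l)) with hν
  have : IsProbabilityMeasure ν :=
    Measure.isProbabilityMeasure_map (meas_blk0 v _).aemeasurable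
  refine ⟨∫⁻ b, ENNReal.ofReal (bH v (lvl l) b) ∂ν, lintegral_bH v μ _ hp, fun A m => ?_⟩
  set F : (ℕ → Fin k) → ℝ≥0∞ := fun t =>
    ∑ i ∈ range m, ENNReal.ofReal (bH v (lvl l) (block v (lvl l) i t))
  have hg : Measurable fun b : Blk k => ENNReal.ofReal (bH v (lvl l) b) := fun _ _ => trivial
  have hmb : ∀ i, Measurable fun t : ℕ → Fin k =>
      ENNReal.ofReal (bH v (lvl l) (block v (lvl l) i t)) := fun i => hg.comp (meas_block v _ i)
  have hF : Measurable F := Finset.measurable_sum _ fun i _ => hmb i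
  have hmean : ∫⁻ t, F t ∂upLaw v μ (lvl l) = (∫⁻ b, ENNReal.ofReal (bH v (lvl l) b) ∂ν) * m := by
    rw [lintegral_finsetSum _ fun i _ => hmb i, sum_congr rfl fun i _ => ?_, sum_const,
      card_range, nsmul_eq_mul, mul_comm]
    have e : (upLaw v μ (lvl l)).map (block v (lvl l) i) = ν := by
      rw [show block v (lvl l) i = (fun f : ℕ → Blk k => f i) ∘ fun t j => block v (lvl l) j t
          from rfl, ← Measure.map_map (measurable_pi_apply i)
          (measurable_pi_lambda _ fun j => meas_block v _ j), map_block v μ _ hp,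
        Measure.infinitePi_map_eval]
    rw [← e, lintegral_map hg (meas_block v _ i)]
  rw [← hmean]
  refine (mul_le_mul' le_rfl (measure_mono_ae ?_)).trans
    (mul_meas_ge_le_lintegral hF ((A * m : ℕ) : ℝ≥0∞))
  filter_upwards [regTime_reg v μ (lvl l) hp] with t hr ht
  have hR : Regular v (lvl l) t := hr
  refine le_trans ?_ (show ENNReal.ofReal (∑ i ∈ range m, bH v (lvl l) (block v (lvl l) i t)) ≤ F t
    from ?_)
  · rw [hR.sum_bH m, lvl_eq, ← ENNReal.ofReal_natCast]
    refine ENNReal.ofReal_le_ofReal ?_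
    exact_mod_cast (ht : ((A * m : ℕ) : ℤ) ≤ _)
  · have key : ∀ j, ENNReal.ofReal (∑ i ∈ range j, bH v (lvl l) (block v (lvl l) i t)) ≤
        ∑ i ∈ range j, ENNReal.ofReal (bH v (lvl l) (block v (lvl l) i t)) := fun j => by
      induction j with
      | zero => simp
      | succ j ih =>
        rw [sum_range_succ, sum_range_succ]
        exact ENNReal.ofReal_add_le.trans (add_le_add ih le_rfl)
    exact key m

/-- A probability that is small after multiplication by a large number is small. -/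
theorem le_of_mul_le {c P D : ℝ≥0∞} (hc : c ≠ 0) (hct : c ≠ ∞) (h : c * P ≤ D * c) : P ≤ D := by
  rwa [mul_comm D c, ENNReal.mul_le_mul_iff_right hc hct] at h

/-- The contradiction, given the bounds on meetings and on visited sites. -/
theorem core (hp : law v μ (StayUp v (lvl l)) ≠ 0) (hq : law v μ (StayUp v (-lvl l)) ≠ 0)
    (hmeet : ∃ C : ℝ≥0∞, C ≠ ∞ ∧ ∀ m : ℕ,
      ∫⁻ t, (∑ i ∈ range m, ∑ j ∈ range m,
        ((upLaw v μ (-lvl l)).prod (upLaw v μ (-lvl l)))
          (Meet v (pos v t (regTime v (lvl l) j t) - pos v t (regTime v (lvl l) i t))))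
        ∂upLaw v μ (lvl l) ≤ C * m)
    (hocc : ∃ C : ℝ≥0∞, C ≠ ∞ ∧ ∀ (M N : ℕ) (x : Site d),
      (N : ℝ≥0∞) * upLaw v μ (-lvl l) (Occ' v l M N x)ᶜ ≤ C * M) : False := by
  have := isProb_upLaw v μ (lvl l) hp
  have := isProb_upLaw v μ (-lvl l) hq
  obtain ⟨C, hC, hCm⟩ := hmeet
  obtain ⟨Co, hCo, hoc⟩ := hocc
  obtain ⟨H, hH, hHm⟩ := exists_height_bound v μ l hp
  set p := law v μ (StayUp v (lvl l))
  set q := law v μ (StayUp v (-lvl l)) with hqdef
  have hqt : q ≠ ∞ := measure_ne_top _ _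
  have hq1 : q ≤ 1 := prob_le_one
  have hpt : p⁻¹ ≠ ∞ := ENNReal.inv_ne_top.2 hp
  set η := q / 16 with hηdef
  have hη0 : η ≠ 0 := by simp [hηdef, hq]
  have hηt : η ≠ ∞ := ENNReal.div_ne_top hqt (by norm_num)
  obtain ⟨A, hA⟩ := ENNReal.exists_nat_gt (ENNReal.mul_ne_top (by norm_num : (2 : ℝ≥0∞) ≠ ∞) hH)
  have hA0 : A ≠ 0 := fun h => by simp [h] at hA
  obtain ⟨C0, hC0⟩ := ENNReal.exists_nat_gt
    (ENNReal.mul_ne_top hCo (ENNReal.inv_ne_top.2 hη0))
  have hC00 : C0 ≠ 0 := fun h => by simp [h] at hC0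
  set L := 16 * (C + 1) / (η * η * q) with hLdef
  have hden : η * η * q ≠ 0 := mul_ne_zero (mul_ne_zero hη0 hη0) hq
  have hdent : η * η * q ≠ ∞ := ENNReal.mul_ne_top (ENNReal.mul_ne_top hηt hηt) hqt
  have hL0 : L ≠ 0 := by simp [hLdef, hdent]
  have hLt : L ≠ ∞ := ENNReal.div_ne_top
    (ENNReal.mul_ne_top (by norm_num) (ENNReal.add_ne_top.2 ⟨hC, ENNReal.one_ne_top⟩)) hden
  set Z := L * p⁻¹ * C0
  have hZ : Z ≠ ∞ := ENNReal.mul_ne_top (ENNReal.mul_ne_top hLt hpt) (ENNReal.natCast_ne_top _)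
  have h32 : q / 32 ≠ 0 := by simp [hq]
  obtain ⟨J, hJ⟩ := ENNReal.exists_nat_gt (ENNReal.mul_ne_top hZ (ENNReal.inv_ne_top.2 h32))
  have hJ0 : J ≠ 0 := fun h => by simp [h] at hJ
  obtain ⟨n, hn0, hn⟩ : ∃ n : ℕ, 0 < n ∧
      Z * A * law v μ (Far v l n) ≤ q / 32 := by
    have h1 := ENNReal.Tendsto.const_mul (tendsto_far v μ l) (a := Z * A)
      (Or.inr (ENNReal.mul_ne_top hZ (ENNReal.natCast_ne_top _)))
    rw [mul_zero] at h1
    obtain ⟨n, hn1, hn2⟩ := ((eventually_gt_atTop 0).and
      (h1.eventually_lt_const (pos_iff_ne_zero.2 h32))).exists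
    exact ⟨n, hn1, hn2.le⟩
  set m := J * n with hmdef
  have hm0 : (m : ℝ≥0∞) ≠ 0 := by simp [hmdef, hJ0, hn0.ne']
  set M₁ := A * m
  set N₁ := C0 * M₁
  set M₂ := n
  set N₂ := C0 * n
  set G : Set (ℕ → Fin k) := {t | lev l (pos v t (regTime v (lvl l) m t)) < M₁}
  -- the first walk does not rise too fast
  have hGc : upLaw v μ (lvl l) Gᶜ ≤ 1 / 2 := by
    have e : Gᶜ = {t | ((A * m : ℕ) : ℤ) ≤ lev l (pos v t (regTime v (lvl l) m t))} := by
      ext t; simp [G, M₁]
    rw [e]
    refine le_of_mul_le (c := ((A * m : ℕ) : ℝ≥0∞)) ?_ (ENNReal.natCast_ne_top _)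
      ((hHm A m).trans ?_)
    · exact_mod_cast Nat.mul_ne_zero hA0 (Nat.mul_ne_zero hJ0 hn0.ne')
    · push_cast
      rw [← mul_assoc]
      refine mul_le_mul' ?_ le_rfl
      rw [one_div, ← mul_one H, ← ENNReal.inv_mul_cancel (a := 2) (by norm_num) (by norm_num),
        mul_left_comm, mul_comm H]
      exact mul_le_mul' le_rfl hA.le
  -- fresh walks usually stay in the class and alive
  have hstart : ∀ x : Site d, q * (3 / 4) ≤ law v μ
      (StayUp v (-lvl l) ∩ Cls v l M₁ N₁ M₂ N₂ x ∩ {s | ∀ i, Alive v μ (-lvl l) η i s}) := by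
    intro x
    set Xs := StayUp v (-lvl l) ∩ Cls v l M₁ N₁ M₂ N₂ x ∩ {s | ∀ i, Alive v μ (-lvl l) η i s}
    have hbad : ∀ M : ℕ, M ≠ 0 → law v μ (StayUp v (-lvl l) ∩ (Occ' v l M (C0 * M) x)ᶜ) ≤ η := by
      intro M hM
      have h1 : upLaw v μ (-lvl l) (Occ' v l M (C0 * M) x)ᶜ ≤ η := by
        refine le_of_mul_le (c := ((C0 * M : ℕ) : ℝ≥0∞)) ?_ (ENNReal.natCast_ne_top _)
          ((hoc M _ x).trans ?_)
        · exact_mod_cast Nat.mul_ne_zero hC00 hM
        · push_cast
          rw [← mul_assoc]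
          refine mul_le_mul' ?_ le_rfl
          calc Co = η * (Co * η⁻¹) := by
                rw [mul_comm Co, ← mul_assoc, ENNReal.mul_inv_cancel hη0 hηt, one_mul]
            _ ≤ η * C0 := mul_le_mul' le_rfl hC0.le
      rw [upLaw_apply v μ _ (measurableSet_occ' v l _ _ x).compl] at h1
      calc law v μ (StayUp v (-lvl l) ∩ (Occ' v l M (C0 * M) x)ᶜ)
          = q * (q⁻¹ * law v μ (StayUp v (-lvl l) ∩ (Occ' v l M (C0 * M) x)ᶜ)) := by
            rw [← mul_assoc, ENNReal.mul_inv_cancel hq hqt, one_mul]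
        _ ≤ 1 * η := mul_le_mul' hq1 h1
        _ = η := one_mul η
    have hsplit : q ≤ law v μ Xs + (η + η + η) := by
      calc q ≤ law v μ (Xs ∪ ((StayUp v (-lvl l) ∩ (Occ' v l M₁ N₁ x)ᶜ) ∪
            (StayUp v (-lvl l) ∩ (Occ' v l M₂ N₂ x)ᶜ) ∪
            (StayUp v (-lvl l) ∩ {s | ∃ i, ¬ Alive v μ (-lvl l) η i s}))) := by
            refine measure_mono fun s hs => ?_
            by_cases h1 : s ∈ Occ' v l M₁ N₁ x
            · by_cases h2 : s ∈ Occ' v l M₂ N₂ x
              · by_cases h3 : ∀ i, Alive v μ (-lvl l) η i s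
                · exact Or.inl ⟨⟨hs, h1, h2⟩, h3⟩
                · exact Or.inr (Or.inr ⟨hs, not_forall.1 h3⟩)
              · exact Or.inr (Or.inl (Or.inr ⟨hs, h2⟩))
            · exact Or.inr (Or.inl (Or.inl ⟨hs, h1⟩))
        _ ≤ _ := (measure_union_le _ _).trans (add_le_add le_rfl
            ((measure_union_le _ _).trans (add_le_add ((measure_union_le _ _).trans (add_le_add
              (hbad M₁ (Nat.mul_ne_zero hA0 (Nat.mul_ne_zero hJ0 hn0.ne'))) (hbad n hn0.ne')))
              (dead_le v μ _ η))))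
    refine ENNReal.le_of_add_le_add_right (a := η + η + η) (by simp [hηt]) (le_trans ?_ hsplit)
    calc q * (3 / 4) + (η + η + η) = q * (3 / 4 + 3 / 16) := by
          rw [hηdef, mul_add, show (3 : ℝ≥0∞) / 16 = 16⁻¹ + 16⁻¹ + 16⁻¹ by
            rw [div_eq_mul_inv]; ring, div_eq_mul_inv q 16]
          ring
      _ ≤ q * 1 := by
          refine mul_le_mul' le_rfl ?_
          rw [← ENNReal.toReal_le_toReal (by simp [ENNReal.div_eq_top]) ENNReal.one_ne_top,
            ENNReal.toReal_add (by simp [ENNReal.div_eq_top]) (by simp [ENNReal.div_eq_top])]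
          norm_num
      _ = q := mul_one q
  -- the inequality for almost every first path
  set Φ₁ : (ℕ → Fin k) → ℝ≥0∞ := fun t =>
    ∑ i ∈ range (regTime v (lvl l) m t + 1), law v μ (Dn v l M₁ N₁ M₂ N₂ t i)
  set Φ₂ : (ℕ → Fin k) → ℝ≥0∞ := fun t => ∑ i ∈ range m, ∑ j ∈ range m,
    ((upLaw v μ (-lvl l)).prod (upLaw v μ (-lvl l)))
      (Meet v (pos v t (regTime v (lvl l) j t) - pos v t (regTime v (lvl l) i t)))
  have hΦ₂ : Measurable Φ₂ := by
    have hpm : Measurable fun x : (ℕ → Fin k) × ℕ => pos v x.1 x.2 :=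
      measurable_from_prod_countable_left fun j => measurable_pos v j
    have hy : ∀ j, Measurable fun t : ℕ → Fin k => pos v t (regTime v (lvl l) j t) := fun j =>
      hpm.comp (measurable_id.prodMk (meas_regTime v (lvl l) j))
    exact Finset.measurable_sum _ fun i _ => Finset.measurable_sum _ fun j _ =>
      (measurable_of_countable fun z : Site d =>
        ((upLaw v μ (-lvl l)).prod (upLaw v μ (-lvl l))) (Meet v z)).comp ((hy j).sub (hy i))
  have hrestr : ∀ z, (((law v μ).restrict (StayUp v (-lvl l))).prod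
      ((law v μ).restrict (StayUp v (-lvl l)))) (Meet v z) ≤
        ((upLaw v μ (-lvl l)).prod (upLaw v μ (-lvl l))) (Meet v z) := by
    intro z
    have hle : (law v μ).restrict (StayUp v (-lvl l)) ≤ upLaw v μ (-lvl l) := by
      refine Measure.le_iff.2 fun s _ => ?_
      rw [upLaw, Measure.smul_apply, smul_eq_mul]
      exact le_mul_of_one_le_left' (ENNReal.one_le_inv.2 hq1)
    rw [Measure.prod_apply (measurableSet_meet v z), Measure.prod_apply (measurableSet_meet v z)]
    exact lintegral_mono' hle fun a => hle _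
  have hae : ∀ᵐ t ∂upLaw v μ (lvl l), (m : ℝ≥0∞) * (q * (3 / 4)) ≤
      L * Φ₁ t + L⁻¹ * ((η * η)⁻¹ * Φ₂ t) := by
    filter_upwards [regTime_reg v μ (lvl l) hp] with t hr
    have hR : Regular v (lvl l) t := hr
    have h1 := pointwise_le v μ l η M₁ N₁ M₂ N₂ (t := t)
      (fun j => pos v t (regTime v (lvl l) j t)) m (regTime v (lvl l) m t)
      (fun j hj => ⟨_, hR.strictMono.monotone hj.le, rfl⟩) hL0 hLt
    refine le_trans ?_ (h1.trans (add_le_add le_rfl (mul_le_mul' le_rfl ?_)))
    · calc (m : ℝ≥0∞) * (q * (3 / 4)) = ∑ j ∈ range m, q * (3 / 4) := by simp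
        _ ≤ _ := sum_le_sum fun j _ => hstart _
    · simp only [Φ₂, mul_sum]
      refine sum_le_sum fun a _ => sum_le_sum fun b _ => ?_
      set z := pos v t (regTime v (lvl l) b t) - pos v t (regTime v (lvl l) a t)
      refine (pairLaw_meetAlive v μ (-lvl l) η z).trans ?_
      have hηη : η * η ≠ 0 := mul_ne_zero hη0 hη0
      have hηηt : η * η ≠ ∞ := ENNReal.mul_ne_top hηt hηt
      calc ((law v μ).prod (law v μ)) (MeetAlive v μ (-lvl l) η z)
          = (η * η)⁻¹ * (η * η * ((law v μ).prod (law v μ)) (MeetAlive v μ (-lvl l) η z)) := by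
            rw [← mul_assoc, ENNReal.inv_mul_cancel hηη hηηt, one_mul]
        _ ≤ _ := mul_le_mul' le_rfl ((prod_meetAlive v μ (-lvl l) η z).trans (hrestr z))
  -- integrate
  have hG : MeasurableSet G := by
    have hpm : Measurable fun x : (ℕ → Fin k) × ℕ => pos v x.1 x.2 :=
      measurable_from_prod_countable_left fun j => measurable_pos v j
    exact (hpm.comp (measurable_id.prodMk (meas_regTime v (lvl l) m)))
      (Set.to_countable {z : Site d | lev l z < M₁}).measurableSet
  have hGlow : (1 : ℝ≥0∞) / 2 ≤ upLaw v μ (lvl l) G := by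
    have h1 := prob_add_prob_compl (μ := upLaw v μ (lvl l)) hG
    refine ENNReal.le_of_add_le_add_right (a := 1 / 2) (by norm_num) ?_
    rw [ENNReal.add_halves]
    exact h1.symm.le.trans (add_le_add le_rfl hGc)
  have hfinal : (m : ℝ≥0∞) * (q * (3 / 8)) ≤ m * (q * (1 / 8)) := by
    calc (m : ℝ≥0∞) * (q * (3 / 8)) = m * (q * (3 / 4)) * (1 / 2) := by
          rw [show (3 : ℝ≥0∞) / 8 = 3 / 4 * (1 / 2) by
            rw [← ENNReal.toReal_eq_toReal_iff' (by simp [ENNReal.div_eq_top])
              (by simp [ENNReal.mul_eq_top, ENNReal.div_eq_top])]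
            norm_num]
          ring
      _ ≤ m * (q * (3 / 4)) * upLaw v μ (lvl l) G := mul_le_mul' le_rfl hGlow
      _ = ∫⁻ _ in G, (m : ℝ≥0∞) * (q * (3 / 4)) ∂upLaw v μ (lvl l) :=
          (setLIntegral_const _ _).symm
      _ ≤ ∫⁻ t in G, (L * Φ₁ t + L⁻¹ * ((η * η)⁻¹ * Φ₂ t)) ∂upLaw v μ (lvl l) :=
          lintegral_mono_ae (ae_restrict_of_ae hae)
      _ ≤ L * (p⁻¹ * ((N₂ : ℝ≥0∞) + N₁ * law v μ (Far v l M₂))) +
          L⁻¹ * ((η * η)⁻¹ * (C * m)) := by
          rw [lintegral_add_right _ ((hΦ₂.const_mul _).const_mul _),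
            lintegral_const_mul' _ _ hLt, lintegral_const_mul' _ _ (ENNReal.inv_ne_top.2 hL0),
            lintegral_const_mul' _ _ (ENNReal.inv_ne_top.2 (mul_ne_zero hη0 hη0))]
          exact add_le_add (mul_le_mul' le_rfl (sum_cut_le v μ l hp M₁ N₁ M₂ N₂ m))
            (mul_le_mul' le_rfl (mul_le_mul' le_rfl
              ((setLIntegral_le_lintegral _ _).trans (hCm m))))
      _ ≤ m * (q / 16) + m * (q / 16) := by
          refine add_le_add ?_ ?_
          · calc L * (p⁻¹ * ((N₂ : ℝ≥0∞) + N₁ * law v μ (Far v l M₂)))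
                = Z * n + m * (Z * A * law v μ (Far v l n)) := by
                  simp only [N₂, N₁, M₁, M₂, Z]; push_cast; ring
              _ ≤ m * (q / 32) + m * (q / 32) := by
                  refine add_le_add ?_ (mul_le_mul' le_rfl hn)
                  calc Z * n = q / 32 * (q / 32)⁻¹ * (Z * n) := by
                        rw [ENNReal.mul_inv_cancel h32
                          (ENNReal.div_ne_top hqt (by norm_num)), one_mul]
                    _ = q / 32 * (Z * (q / 32)⁻¹) * n := by ring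
                    _ ≤ q / 32 * J * n := mul_le_mul' (mul_le_mul' le_rfl hJ.le) le_rfl
                    _ = m * (q / 32) := by rw [hmdef]; push_cast; ring
              _ = m * (q / 16) := by
                  rw [← mul_add, div_eq_mul_inv, div_eq_mul_inv, ← mul_add]
                  congr 2
                  rw [← ENNReal.toReal_eq_toReal_iff' (by simp) (by simp),
                    ENNReal.toReal_add (by simp) (by simp)]
                  norm_num
          · have h1 : L⁻¹ * ((η * η)⁻¹ * C) ≤ q / 16 := by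
              rw [hLdef, ENNReal.inv_div (Or.inr (ENNReal.mul_ne_top (by norm_num) (ENNReal.add_ne_top.2 ⟨hC, ENNReal.one_ne_top⟩)))
                (Or.inr (by simp))]
              calc η * η * q / (16 * (C + 1)) * ((η * η)⁻¹ * C)
                  = (η * η * (η * η)⁻¹) * q * (C / (16 * (C + 1))) := by
                    rw [div_eq_mul_inv, div_eq_mul_inv]; ring
                _ ≤ 1 * q * (1 / 16) := by
                    refine mul_le_mul' (mul_le_mul' (ENNReal.mul_inv_le_one _) le_rfl) ?_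
                    · refine ENNReal.div_le_of_le_mul ?_
                      rw [← mul_assoc, one_div, ENNReal.inv_mul_cancel (by norm_num) (by norm_num),
                        one_mul]
                      exact le_self_add
                _ = q / 16 := by rw [one_mul, one_div, div_eq_mul_inv]
            calc L⁻¹ * ((η * η)⁻¹ * (C * m)) = m * (L⁻¹ * ((η * η)⁻¹ * C)) := by ring
              _ ≤ m * (q / 16) := mul_le_mul' le_rfl h1
      _ = m * (q * (1 / 8)) := by
          rw [← mul_add, div_eq_mul_inv, ← mul_add]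
          congr 2
          rw [← ENNReal.toReal_eq_toReal_iff' (by simp) (by simp),
            ENNReal.toReal_add (by simp) (by simp)]
          norm_num
  rw [ENNReal.mul_le_mul_iff_right hm0 (ENNReal.natCast_ne_top _),
    ENNReal.mul_le_mul_iff_right hq hqt,
    ← ENNReal.toReal_le_toReal (by simp [ENNReal.div_eq_top]) (by simp)]
    at hfinal
  norm_num at hfinal

end Vale.Agent.P147.Semi
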