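import Vale.Agent.P147.Semi.Defs
import Vale.Agent.P147.Speed.Opposite
import Vale.Agent.P147.Speed.Velocity
import Vale.Agent.P147.Dir.Velocity
import Vale.Agent.P147.Cond.Union

/-!
P147, a nonzero velocity forces the zero-one law: from integer directions to all directions.
-/

open MeasureTheory Filter Finset
open scoped ENNReal Topology

namespace Vale.Agent.P147.Semi

open Vale.Agent.P147.Cond Vale.Agent.P147.Dir Vale.Agent.P147.Dir.Blocks Vale.Agent.P147.Speed

variable {d k : ℕ} [NeZero k] (v : Fin k → Site d) (μ : Measure (Row k)) [IsProbabilityMeasure μ]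

/-- No opposite escape when one side visits few sites per height. -/
def NoRange : Prop :=
  ∀ l : Fin d → ℤ, law v μ (up v (lvl l)) ≠ 0 → law v μ (up v (-lvl l)) ≠ 0 →
    ∫⁻ t, ((futW v (blk0 v (-lvl l) t)).card : ℝ≥0∞) ∂upLaw v μ (-lvl l) ≠ ∞ → False

omit [NeZero k] in
theorem lvl_neg (l : Fin d → ℤ) : lvl (-l) = -lvl l := by
  ext z
  simp [lvl, dot]

/-- Finitely many sites per block at a positive speed. -/
theorem lintegral_card {w : Fin d → ℝ} (hw : law v μ (speed v w) ≠ 0) {l : Fin d → ℤ}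
    (hl : 0 < ∑ j, (l j : ℝ) * w j) :
    law v μ (up v (lvl l)) ≠ 0 ∧
      ∫⁻ t, ((futW v (blk0 v (lvl l) t)).card : ℝ≥0∞) ∂upLaw v μ (lvl l) ≠ ∞ := by
  obtain ⟨hup, hnull⟩ := up_sdiff_speed v μ (l := fun j => (l j : ℝ)) hl hw
  refine ⟨hup, ?_⟩
  have h := lintegral_len v μ (lvl l) hup hl
    (measure_mono_null (fun t ht => (show t ∈ up v (dot fun j => (l j : ℝ)) \ speed v w from
      ⟨ht.1, fun h' => ht.2 (speed_height v h' _)⟩)) hnull)
  rw [lintegral_map (Measurable.of_discrete (f := fun b : Blk k => (blen b : ℝ≥0∞))) (meas_blk0 v _)] at h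
  exact ne_top_of_le_ne_top h (lintegral_mono fun t => Nat.cast_le.2 (card_futW v _))

/-- No escape against a velocity. -/
theorem escape_null (hno : NoRange v μ) {w : Fin d → ℝ} (hw0 : w ≠ 0)
    (hw : law v μ (speed v w) ≠ 0) {e : Fin d → ℝ} (he : ∑ j, e j * w j ≤ 0) :
    law v μ (Escape v e) = 0 := by
  by_contra h
  obtain ⟨u, hu, hnull⟩ := exists_direction v μ e h
  have hu0 : u ≠ 0 := fun h0 => by simp [h0] at hu
  have hray : ∀ c : ℝ, 0 < c → u ≠ c • w := fun c hc h0 => by
    rw [h0] at hu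
    simp only [Pi.smul_apply, smul_eq_mul, mul_left_comm _ c, ← mul_sum] at hu
    nlinarith
  obtain ⟨l, hl, hlu⟩ := exists_separating w u hw0 hu0 hray
  obtain ⟨hup, hcard⟩ := lintegral_card v μ hw hl
  refine hno (-l) ?_ (by rw [lvl_neg, neg_neg]; exact hup) (by rw [lvl_neg, neg_neg]; exact hcard)
  intro h0
  refine h ?_
  set D : Set (ℕ → Fin k) := {t | ∀ j, Tendsto
    (fun n => (pos v t n j : ℝ) / ∑ i, e i * (pos v t n i : ℝ)) atTop (𝓝 (u j))}
  refine measure_mono_null (t := Escape v e \ D ∪ up v (lvl (-l))) (fun t ht => ?_)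
    (measure_union_null hnull h0)
  by_cases htD : t ∈ D
  · right
    have hpos : 0 < ∑ j, ((-l) j : ℝ) * u j := by simpa [sum_neg_distrib] using hlu
    have hlim : Tendsto (fun n => ∑ j, ((-l) j : ℝ) *
        ((pos v t n j : ℝ) / ∑ i, e i * (pos v t n i : ℝ))) atTop
        (𝓝 (∑ j, ((-l) j : ℝ) * u j)) :=
      tendsto_finsetSum _ fun j _ => (htD j).const_mul _
    have ht' : Tendsto (fun n => ∑ j, e j * (pos v t n j : ℝ)) atTop atTop := ht
    refine (hlim.pos_mul_atTop hpos ht').congr' ?_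
    filter_upwards [ht'.eventually_gt_atTop 0] with n hn
    show _ = ∑ j, (((-l) j : ℤ) : ℝ) * (pos v t n j : ℝ)
    rw [sum_mul]
    exact sum_congr rfl fun j _ => by field_simp
  · exact Or.inl ⟨ht, htD⟩

/-- A velocity with positive probability is almost sure and decides every escape event. -/
theorem velocity_forces (hno : NoRange v μ) (hell : ∀ i, ∀ᵐ p ∂μ, 0 < (p : Row k).1 i)
    (hunit : ∀ j, (∃ i, v i = Pi.single j 1) ∧ ∃ i, v i = Pi.single j (-1))
    {w : Fin d → ℝ} (hw0 : w ≠ 0) (hw : law v μ (speed v w) ≠ 0) :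
    law v μ (speed v w) = 1 ∧ ∀ e : Fin d → ℝ,
      law v μ (Escape v e) = if 0 < ∑ j, e j * w j then 1 else 0 := by
  have hone : ∀ e : Fin d → ℝ, 0 < ∑ j, e j * w j → ∀ᵐ t ∂law v μ, t ∈ up v (dot e) := by
    intro e he
    obtain ⟨hup, -⟩ := up_sdiff_speed v μ he hw
    obtain ⟨j, hj⟩ : ∃ j, e j ≠ 0 := by
      by_contra hc
      push Not at hc
      simp [hc] at he
    obtain ⟨i0, hi0⟩ : ∃ i0, 0 < dot e (v i0) := by
      obtain ⟨⟨ip, hip⟩, im, him⟩ := hunit j
      have hd : ∀ (i : Fin k) (s : ℤ), v i = Pi.single j s → dot e (v i) = e j * s := by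
        intro i s hi
        show ∑ q, e q * (v i q : ℝ) = e j * s
        rw [hi, sum_eq_single j (fun q _ hq => by simp [hq]) (by simp), Pi.single_eq_same]
      rcases lt_or_gt_of_ne hj with hlt | hgt
      · exact ⟨im, by rw [hd im _ him]; push_cast; linarith⟩
      · exact ⟨ip, by rw [hd ip _ hip]; push_cast; linarith⟩
    have hdn : law v μ (up v (-dot e)) = 0 := by
      have : up v (-dot e) = Escape v (-e) := by
        rw [escape_eq]
        congr 1
        ext x
        simp [dot]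
      rw [this]
      exact escape_null v μ hno hw0 hw (by simp [sum_neg_distrib, he.le])
    filter_upwards [union_full v μ (dot e) i0 (hell i0) hi0 hup,
      measure_eq_zero_iff_ae_notMem.1 hdn] with t h1 h2
    exact h1.resolve_right h2
  refine ⟨?_, fun e => ?_⟩
  · have hl : 0 < ∑ j, w j * w j := by
      obtain ⟨j, hj⟩ := Function.ne_iff.1 hw0
      exact sum_pos' (fun i _ => mul_self_nonneg _) ⟨j, mem_univ _, mul_self_pos.2 hj⟩
    obtain ⟨-, hnull⟩ := up_sdiff_speed v μ hl hw
    rw [← prob_compl_eq_zero_iff (measurableSet_speed v w), measure_eq_zero_iff_ae_notMem]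
    filter_upwards [hone w hl, measure_eq_zero_iff_ae_notMem.1 hnull] with t h1 h2 h3
    exact h2 ⟨h1, h3⟩
  · split_ifs with he
    · rw [escape_eq, ← prob_compl_eq_zero_iff (measurableSet_up v _), measure_eq_zero_iff_ae_notMem]
      filter_upwards [hone e he] with t h1 h2
      exact h2 h1
    · exact escape_null v μ hno hw0 hw (not_lt.1 he)

end Vale.Agent.P147.Semi
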