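import Vale.Agent.P147.Semi.Defs
import Vale.Agent.P147.Glue.Quenched

/-!
P147, a nonzero velocity forces the zero-one law: two walks in one environment up to their first
meeting are independent, and a walk that is alive can be continued below its start.
-/

open MeasureTheory Filter Finset
open scoped ENNReal

namespace Vale.Agent.P147.Semi

open Vale.Agent.P147.Cond Vale.Agent.P147.Dir Vale.Agent.P147.Dir.Blocks Vale.Agent.P147.Glue

variable {d k : ℕ} [NeZero k] (v : Fin k → Site d) (μ : Measure (Row k)) [IsProbabilityMeasure μ]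
  (ht : Site d →+ ℝ) (η : ℝ≥0∞)

omit [IsProbabilityMeasure μ] in
theorem alive_congr {n : ℕ} {s s' : ℕ → Fin k} (h : ∀ i < n, s' i = s i) :
    Alive v μ ht η n s' ↔ Alive v μ ht η n s :=
  forall₂_congr fun j hj => by
    rw [show {t : ℕ → Fin k | ∀ i < j, t i = s' i} = {t | ∀ i < j, t i = s i} from
      Set.ext fun t => forall₂_congr fun i hi => by rw [h i (hi.trans_le hj)]]

omit [IsProbabilityMeasure μ] in
theorem alive_mono {n m : ℕ} (h : m ≤ n) {s : ℕ → Fin k} (hs : Alive v μ ht η n s) :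
    Alive v μ ht η m s := fun j hj => hs j (hj.trans h)

omit [IsProbabilityMeasure μ] in
theorem measurableSet_alive (n : ℕ) : MeasurableSet {s | Alive v μ ht η n s} :=
  measurableSet_of_prefix n fun _ _ h hs => (alive_congr v μ ht η h).1 hs

omit [IsProbabilityMeasure μ] in
/-- A family of disjoint prefixes, each with a continuation below the start of relative
probability at least `η`. -/
theorem mul_prefix_le {n : ℕ} {E : Set (ℕ → Fin k)}
    (hE : ∀ t t' : ℕ → Fin k, (∀ i < n, t i = t' i) → t ∈ E → t' ∈ E)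
    (hA : ∀ t ∈ E, η * law v μ {u | ∀ i < n, u i = t i} ≤
      law v μ ({u | ∀ i < n, u i = t i} ∩ StayUp v ht)) :
    η * law v μ E ≤ law v μ (E ∩ StayUp v ht) := by
  classical
  have h := sum_prefix (law v μ) n hE MeasurableSet.univ
  have h' := sum_prefix (law v μ) n hE (meas_shift n (measurableSet_StayUp v ht))
  simp only [Set.inter_univ] at h
  rw [sum_prefix (law v μ) n hE (measurableSet_StayUp v ht), h, mul_sum]
  refine sum_le_sum fun w _ => ?_
  split_ifs with hw
  · exact hA _ hw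
  · simp

omit [IsProbabilityMeasure μ] in
/-- An alive walk hits a set hardly more often than a walk staying below its start. -/
theorem alive_hit (U : Set (Site d)) :
    η * law v μ {s | ∃ n, Alive v μ ht η n s ∧ pos v s n ∈ U} ≤
      law v μ (StayUp v ht ∩ {s | ∃ n, pos v s n ∈ U}) := by
  classical
  set F : ℕ → Set (ℕ → Fin k) := fun n =>
    {s | Alive v μ ht η n s ∧ pos v s n ∈ U ∧ ∀ j < n, pos v s j ∉ U}
  have hF : ∀ n, ∀ t t' : ℕ → Fin k, (∀ i < n, t i = t' i) → t ∈ F n → t' ∈ F n := by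
    rintro n t t' h ⟨h1, h2, h3⟩
    refine ⟨(alive_congr v μ ht η h).1 h1, ?_, fun j hj => ?_⟩
    · rwa [← pos_congr v h le_rfl]
    · rw [← pos_congr v h hj.le]; exact h3 j hj
  have hFm : ∀ n, MeasurableSet (F n) := fun n => measurableSet_of_prefix n (hF n)
  have hd : Pairwise (Function.onFun Disjoint F) := fun a b hab => by
    refine Set.disjoint_left.2 fun s ha hb => ?_
    rcases lt_or_gt_of_ne hab with h | h
    exacts [hb.2.2 a h ha.2.1, ha.2.2 b h hb.2.1]
  have hcov : {s | ∃ n, Alive v μ ht η n s ∧ pos v s n ∈ U} = ⋃ n, F n := by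
    ext s
    simp only [Set.mem_iUnion]
    refine ⟨fun ⟨n, h1, h2⟩ => ?_, fun ⟨n, h1, h2, _⟩ => ⟨n, h1, h2⟩⟩
    have hex : ∃ j, pos v s j ∈ U := ⟨n, h2⟩
    exact ⟨Nat.find hex, alive_mono v μ ht η (Nat.find_min' hex h2) h1, Nat.find_spec hex,
      fun j hj => Nat.find_min hex hj⟩
  rw [hcov, measure_iUnion hd hFm, ← ENNReal.tsum_mul_left]
  calc ∑' n, η * law v μ (F n) ≤ ∑' n, law v μ (F n ∩ StayUp v ht) :=
        ENNReal.tsum_le_tsum fun n => mul_prefix_le v μ ht η (hF n) fun t h => h.1 n le_rfl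
    _ = law v μ (⋃ n, F n ∩ StayUp v ht) := (measure_iUnion
        (fun a b hab => (hd hab).mono Set.inter_subset_left Set.inter_subset_left)
        fun n => (hFm n).inter (measurableSet_StayUp v ht)).symm
    _ ≤ _ := measure_mono (Set.iUnion_subset fun n s (hs : s ∈ F n ∩ StayUp v ht) =>
        show s ∈ StayUp v ht ∩ {s | ∃ n, pos v s n ∈ U} from ⟨hs.2, n, hs.1.2.1⟩)

/-- A walk staying below its start rarely stops being alive. -/
theorem dead_le : law v μ (StayUp v ht ∩ {s | ∃ n, ¬ Alive v μ ht η n s}) ≤ η := by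
  classical
  set F : ℕ → Set (ℕ → Fin k) := fun n =>
    {s | ¬ Alive v μ ht η n s ∧ ∀ j < n, Alive v μ ht η j s}
  have hF : ∀ n, ∀ t t' : ℕ → Fin k, (∀ i < n, t i = t' i) → t ∈ F n → t' ∈ F n := by
    rintro n t t' h ⟨h1, h2⟩
    exact ⟨fun hc => h1 ((alive_congr v μ ht η h).2 hc),
      fun j hj => (alive_congr v μ ht η fun i hi => h i (hi.trans hj)).1 (h2 j hj)⟩
  have hFm : ∀ n, MeasurableSet (F n) := fun n => measurableSet_of_prefix n (hF n)
  have hd : Pairwise (Function.onFun Disjoint F) := fun a b hab => by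
    refine Set.disjoint_left.2 fun s ha hb => ?_
    rcases lt_or_gt_of_ne hab with h | h
    exacts [ha.1 (hb.2 a h), hb.1 (ha.2 b h)]
  calc law v μ (StayUp v ht ∩ {s | ∃ n, ¬ Alive v μ ht η n s})
      ≤ law v μ (⋃ n, F n ∩ StayUp v ht) := measure_mono fun s ⟨hs, hex⟩ =>
        Set.mem_iUnion.2 ⟨Nat.find hex, ⟨Nat.find_spec hex,
          fun j hj => not_not.1 (Nat.find_min hex hj)⟩, hs⟩
    _ = ∑' n, law v μ (F n ∩ StayUp v ht) := measure_iUnion
        (fun a b hab => (hd hab).mono Set.inter_subset_left Set.inter_subset_left)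
        fun n => (hFm n).inter (measurableSet_StayUp v ht)
    _ ≤ ∑' n, η * law v μ (F n) := by
        refine ENNReal.tsum_le_tsum fun n => ?_
        have h := sum_prefix (law v μ) n (hF n) MeasurableSet.univ
        simp only [Set.inter_univ] at h
        rw [sum_prefix (law v μ) n (hF n) (measurableSet_StayUp v ht), h, mul_sum]
        refine sum_le_sum fun w _ => ?_
        split_ifs with hw
        · obtain ⟨j, hj, hlt⟩ : ∃ j, j ≤ n ∧ ¬ η * law v μ {t | ∀ i < j, t i = ext' w i} ≤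
              law v μ ({t | ∀ i < j, t i = ext' w i} ∩ StayUp v ht) := by
            simpa [Alive] using hw.1
          rcases hj.lt_or_eq with h' | rfl
          · exact absurd (hw.2 j h' j le_rfl) hlt
          · exact (not_le.1 hlt).le
        · simp
    _ = η * law v μ (⋃ n, F n) := by rw [ENNReal.tsum_mul_left, measure_iUnion hd hFm]
    _ ≤ η := mul_le_of_le_one_right' prob_le_one

/-- Prefixes on disjoint sites see independent environments. -/
theorem pair_prefix (z : Site d) (s s' : ℕ → Fin k) (n n' : ℕ)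
    (hdis : ∀ i < n, ∀ j < n', pos v s i ≠ z + pos v s' j) :
    pairLaw v μ z ({t | ∀ i < n, t i = s i} ×ˢ {t | ∀ i < n', t i = s' i}) =
      law v μ {t | ∀ i < n, t i = s i} * law v μ {t | ∀ i < n', t i = s' i} := by
  have hm : ∀ (r : ℕ → Fin k) (n : ℕ), MeasurableSet {t : ℕ → Fin k | ∀ i < n, t i = r i} :=
    fun r n => measurableSet_prefix r n
  rw [pairLaw_apply v μ z ((hm s n).prod (hm s' n'))]
  simp only [Measure.prod_prod, qLaw_prefix]
  set U : Set (Site d) := {x | ∃ i < n, x = pos v s i}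
  have hw : ∀ a, weight v s n (comb U a) = weight v s n a.1 := fun a =>
    prod_congr rfl fun i hi => by rw [comb, if_pos ⟨i, mem_range.1 hi, rfl⟩]
  have hw' : ∀ a, weight v s' n' (seen z (comb U a)) = weight v s' n' (seen z a.2) := fun a =>
    prod_congr rfl fun j hj => by
      have : z + pos v s' j ∉ U := fun ⟨i, hi, e⟩ => hdis i hi j (mem_range.1 hj) e.symm
      rw [seen, seen, comb, if_neg this]
  have hm2 : Measurable fun ω : Site d → Row k => weight v s' n' (seen z ω) :=
    (measurable_weight v s' n').comp (measurable_seen z)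
  conv_lhs => rw [← map_comb μ U]
  rw [lintegral_map (f := fun ω => weight v s n ω * weight v s' n' (seen z ω))
    ((measurable_weight v s n).mul hm2) (measurable_comb U)]
  simp only [hw, hw']
  rw [lintegral_prod_mul (measurable_weight v s n).aemeasurable hm2.aemeasurable, law_prefix,
    law_prefix]
  congr 1
  calc ∫⁻ ω, weight v s' n' (seen z ω) ∂envLaw μ
      = ∫⁻ ω, weight v s' n' ω ∂((envLaw μ).map (seen z)) :=
        (lintegral_map (measurable_weight v s' n') (measurable_seen z)).symm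
    _ = _ := by rw [show (envLaw (d := d) μ).map (seen z) = envLaw μ from map_shift_env μ z]

/-- Meetings at times at most `N`. -/
def MeetN (z : Site d) (N : ℕ) : Set ((ℕ → Fin k) × (ℕ → Fin k)) :=
  {x | ∃ i j, i ≤ N ∧ j ≤ N ∧
    Alive v μ ht η i x.1 ∧ Alive v μ ht η j x.2 ∧ pos v x.1 i = z + pos v x.2 j}

/-- The second walk is alive before time `L`, which is `N` or the time of its death; the first
walk hits its alive sites for the first time at time `i`. -/
def Piece (z : Site d) (N i L : ℕ) (a b : ℕ → Fin k) : Prop :=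
  i ≤ N ∧ L ≤ N ∧ (∀ j < L, Alive v μ ht η j b) ∧ (L = N ∨ ¬ Alive v μ ht η L b) ∧
  Alive v μ ht η i a ∧ (∃ j ≤ L, Alive v μ ht η j b ∧ pos v a i = z + pos v b j) ∧
  ∀ i' < i, ∀ j ≤ L, Alive v μ ht η j b → pos v a i' ≠ z + pos v b j

omit [IsProbabilityMeasure μ] in
theorem piece_congr {z : Site d} {N i L : ℕ} {a a' b b' : ℕ → Fin k} (ha : ∀ q < i, a' q = a q)
    (hb : ∀ q < L, b' q = b q) (h : Piece v μ ht η z N i L a b) :
    Piece v μ ht η z N i L a' b' := by
  obtain ⟨h1, h2, h3, h4, h5, ⟨j, hj, h6, h7⟩, h8⟩ := h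
  have hal : ∀ j ≤ L, (Alive v μ ht η j b' ↔ Alive v μ ht η j b) := fun j hj =>
    alive_congr v μ ht η fun q hq => hb q (hq.trans_le hj)
  refine ⟨h1, h2, fun j hj => (hal j hj.le).2 (h3 j hj),
    h4.imp id fun h hc => h ((hal L le_rfl).1 hc), (alive_congr v μ ht η ha).2 h5,
    ⟨j, hj, (hal j hj).2 h6, ?_⟩, fun i' hi j hj hal' => ?_⟩
  · rwa [pos_congr v ha le_rfl, pos_congr v hb hj]
  · rw [pos_congr v ha hi.le, pos_congr v hb hj]
    exact h8 i' hi j hj ((hal j hj).1 hal')

omit [IsProbabilityMeasure μ] in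
theorem exists_piece {z : Site d} {N : ℕ} {x : (ℕ → Fin k) × (ℕ → Fin k)}
    (hx : x ∈ MeetN v μ ht η z N) : ∃ i L, Piece v μ ht η z N i L x.1 x.2 := by
  classical
  obtain ⟨i, j, hi, hj, hai, haj, e⟩ := hx
  have hexL : ∃ L, L = N ∨ ¬ Alive v μ ht η L x.2 := ⟨N, Or.inl rfl⟩
  set L := Nat.find hexL
  have hLN : L ≤ N := Nat.find_min' hexL (Or.inl rfl)
  have hbefore : ∀ j' < L, Alive v μ ht η j' x.2 := fun j' hj' =>
    not_not.1 fun hc => Nat.find_min hexL hj' (Or.inr hc)
  have hjL : j ≤ L := by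
    rcases Nat.find_spec hexL with h | h
    · exact hj.trans_eq h.symm
    · exact not_lt.1 fun hlt => h (alive_mono v μ ht η hlt.le haj)
  have hexi : ∃ i', ∃ j' ≤ L, Alive v μ ht η j' x.2 ∧ pos v x.1 i' = z + pos v x.2 j' :=
    ⟨i, j, hjL, haj, e⟩
  have hii : Nat.find hexi ≤ i := Nat.find_min' hexi ⟨j, hjL, haj, e⟩
  exact ⟨Nat.find hexi, L, hii.trans hi, hLN, hbefore, Nat.find_spec hexL,
    alive_mono v μ ht η hii hai, Nat.find_spec hexi,
    fun i' hi' j' hj' hal he => Nat.find_min hexi hi' ⟨j', hj', hal, he⟩⟩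

omit [IsProbabilityMeasure μ] in
theorem piece_unique {z : Site d} {N i L i' L' : ℕ} {a b : ℕ → Fin k}
    (h : Piece v μ ht η z N i L a b) (h' : Piece v μ ht η z N i' L' a b) : i = i' ∧ L = L' := by
  obtain rfl : L = L' := by
    rcases lt_trichotomy L L' with hlt | heq | hgt
    · rcases h.2.2.2.1 with e | e
      · exact absurd h'.2.1 (by omega)
      · exact absurd (h'.2.2.1 L hlt) e
    · exact heq
    · rcases h'.2.2.2.1 with e | e
      · exact absurd h.2.1 (by omega)
      · exact absurd (h.2.2.1 L' hgt) e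
  refine ⟨?_, rfl⟩
  rcases lt_trichotomy i i' with hlt | heq | hgt
  · obtain ⟨j, hj, hal, e⟩ := h.2.2.2.2.2.1
    exact absurd e (h'.2.2.2.2.2.2 i hlt j hj hal)
  · exact heq
  · obtain ⟨j, hj, hal, e⟩ := h'.2.2.2.2.2.1
    exact absurd e (h.2.2.2.2.2.2 i' hgt j hj hal)

omit [IsProbabilityMeasure μ] in
theorem measurableSet_meetAlive (z : Site d) : MeasurableSet (MeetAlive v μ ht η z) := by
  have e : MeetAlive v μ ht η z = ⋃ (i : ℕ) (j : ℕ),
      (({s | Alive v μ ht η i s} ×ˢ {s | Alive v μ ht η j s}) ∩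
        {x : (ℕ → Fin k) × (ℕ → Fin k) | pos v x.1 i = z + pos v x.2 j}) := by
    ext x; simp [MeetAlive, and_assoc]
  rw [e]
  exact .iUnion fun i => .iUnion fun j =>
    ((measurableSet_alive v μ ht η i).prod (measurableSet_alive v μ ht η j)).inter
      (measurableSet_eq_fun ((measurable_pos v i).comp measurable_fst)
        ((measurable_const (a := z)).add ((measurable_pos v j).comp measurable_snd)))

/-- Up to the first meeting one environment acts as two. -/
theorem pairLaw_meetAlive (z : Site d) :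
    pairLaw v μ z (MeetAlive v μ ht η z) ≤
      ((law v μ).prod (law v μ)) (MeetAlive v μ ht η z) := by
  classical
  have hU : MeetAlive v μ ht η z = ⋃ N, MeetN v μ ht η z N := by
    ext x
    simp only [MeetAlive, MeetN, Set.mem_iUnion, Set.mem_ofPred_eq]
    exact ⟨fun ⟨i, j, h⟩ => ⟨max i j, i, j, le_max_left _ _, le_max_right _ _, h⟩,
      fun ⟨_, i, j, _, _, h⟩ => ⟨i, j, h⟩⟩
  have hmono : Monotone (MeetN v μ ht η z) := fun N N' h x ⟨i, j, h1, h2, h3⟩ =>
    ⟨i, j, h1.trans h, h2.trans h, h3⟩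
  conv_lhs => rw [hU]
  rw [hmono.measure_iUnion]
  refine iSup_le fun N => ?_
  let ι := Σ i : Fin (N + 1), Σ L : Fin (N + 1), {p : (Fin i → Fin k) × (Fin L → Fin k) //
    Piece v μ ht η z N i L (ext' p.1) (ext' p.2)}
  let P : ι → Set ((ℕ → Fin k) × (ℕ → Fin k)) := fun p =>
    {t | ∀ q < (p.1 : ℕ), t q = ext' p.2.2.1.1 q} ×ˢ
      {t | ∀ q < (p.2.1 : ℕ), t q = ext' p.2.2.1.2 q}
  have hPm : ∀ p, MeasurableSet (P p) := fun p =>
    (measurableSet_prefix _ _).prod (measurableSet_prefix _ _)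
  have hsub : MeetN v μ ht η z N ⊆ ⋃ p, P p := fun x hx => by
    obtain ⟨i, L, hp⟩ := exists_piece v μ ht η hx
    have e : ∀ (s : ℕ → Fin k) (n : ℕ), ∀ q < n, ext' (fun q : Fin n => s q) q = s q :=
      fun s n q hq => by simp [ext', hq]
    exact Set.mem_iUnion.2 ⟨⟨⟨i, Nat.lt_succ_of_le hp.1⟩, ⟨L, Nat.lt_succ_of_le hp.2.1⟩,
      ⟨(fun q => x.1 q, fun q => x.2 q), piece_congr v μ ht η (e x.1 i) (e x.2 L) hp⟩⟩,
      fun q hq => (e x.1 i q hq).symm, fun q hq => (e x.2 L q hq).symm⟩
  have hP : ∀ p x, x ∈ P p → x ∈ MeetAlive v μ ht η z := by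
    rintro ⟨i, L, ⟨⟨w, w'⟩, hp⟩⟩ x ⟨hx1, hx2⟩
    obtain ⟨-, -, -, -, h5, ⟨j, -, h6, h7⟩, -⟩ :=
      piece_congr v μ ht η (a' := x.1) (b' := x.2) hx1 hx2 hp
    exact ⟨i, j, h5, h6, h7⟩
  have hdisj : Pairwise (Function.onFun Disjoint P) := by
    rintro ⟨i, L, ⟨⟨w, w'⟩, hp⟩⟩ ⟨i', L', ⟨⟨u, u'⟩, hq⟩⟩ hne
    refine Set.disjoint_left.2 fun x hx hx' => hne ?_
    obtain ⟨e1, e2⟩ := piece_unique v μ ht η
      (piece_congr v μ ht η (a' := x.1) (b' := x.2) hx.1 hx.2 hp)
      (piece_congr v μ ht η (a' := x.1) (b' := x.2) hx'.1 hx'.2 hq)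
    obtain rfl : i = i' := Fin.ext e1
    obtain rfl : L = L' := Fin.ext e2
    obtain rfl : w = u := funext fun q => by
      simpa [ext'] using (hx.1 q q.2).symm.trans (hx'.1 q q.2)
    obtain rfl : w' = u' := funext fun q => by
      simpa [ext'] using (hx.2 q q.2).symm.trans (hx'.2 q q.2)
    rfl
  calc pairLaw v μ z (MeetN v μ ht η z N) ≤ pairLaw v μ z (⋃ p, P p) := measure_mono hsub
    _ ≤ ∑' p, pairLaw v μ z (P p) := measure_iUnion_le _
    _ = ∑' p, ((law v μ).prod (law v μ)) (P p) := tsum_congr fun p => by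
        obtain ⟨i, L, ⟨⟨w, w'⟩, hp⟩⟩ := p
        rw [Measure.prod_prod]
        exact pair_prefix v μ z _ _ _ _ fun i' hi j hj =>
          hp.2.2.2.2.2.2 i' hi j hj.le (hp.2.2.1 j hj)
    _ = ((law v μ).prod (law v μ)) (⋃ p, P p) := (measure_iUnion hdisj hPm).symm
    _ ≤ _ := measure_mono (Set.iUnion_subset hP)

/-- Alive walks meet hardly more often than independent walks staying below their starts. -/
theorem prod_meetAlive (z : Site d) :
    η * η * ((law v μ).prod (law v μ)) (MeetAlive v μ ht η z) ≤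
      (((law v μ).restrict (StayUp v ht)).prod ((law v μ).restrict (StayUp v ht)))
        (Meet v z) := by
  set E := StayUp v ht
  have hE := measurableSet_StayUp v ht
  set M₁ : Set ((ℕ → Fin k) × (ℕ → Fin k)) :=
    {x | ∃ i j, Alive v μ ht η i x.1 ∧ pos v x.1 i = z + pos v x.2 j}
  have hM₁ : MeasurableSet M₁ := by
    have e : M₁ = ⋃ (i : ℕ) (j : ℕ), ({s | Alive v μ ht η i s} ×ˢ Set.univ) ∩
        {x : (ℕ → Fin k) × (ℕ → Fin k) | pos v x.1 i = z + pos v x.2 j} := by
      ext x; simp [M₁]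
    rw [e]
    exact .iUnion fun i => .iUnion fun j =>
      ((measurableSet_alive v μ ht η i).prod .univ).inter
        (measurableSet_eq_fun ((measurable_pos v i).comp measurable_fst)
          ((measurable_const (a := z)).add ((measurable_pos v j).comp measurable_snd)))
  have s2 : η * ((law v μ).prod (law v μ)) (MeetAlive v μ ht η z) ≤
      ((law v μ).prod ((law v μ).restrict E)) M₁ := by
    rw [Measure.prod_apply (measurableSet_meetAlive v μ ht η z), Measure.prod_apply hM₁,
      ← lintegral_const_mul _ (measurable_measure_prodMk_left (measurableSet_meetAlive v μ ht η z))]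
    refine lintegral_mono fun a => ?_
    rw [Measure.restrict_apply (measurable_prodMk_left hM₁)]
    set U : Set (Site d) := {w | ∃ i, Alive v μ ht η i a ∧ pos v a i = z + w}
    refine le_trans ?_ ((alive_hit v μ ht η U).trans (measure_mono ?_))
    · exact mul_le_mul' le_rfl (measure_mono fun b ⟨i, j, h1, h2, h3⟩ =>
        ⟨j, h2, i, h1, h3⟩)
    · rintro b ⟨hb, j, i, h1, h3⟩
      exact ⟨⟨i, j, h1, h3⟩, hb⟩
  have s1 : η * ((law v μ).prod ((law v μ).restrict E)) M₁ ≤
      (((law v μ).restrict E).prod ((law v μ).restrict E)) (Meet v z) := by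
    rw [Measure.prod_apply_symm hM₁, Measure.prod_apply_symm (measurableSet_meet v z),
      ← lintegral_const_mul _ (measurable_measure_prodMk_right hM₁)]
    refine lintegral_mono fun b => ?_
    rw [Measure.restrict_apply (measurable_prodMk_right (measurableSet_meet v z))]
    set U : Set (Site d) := {w | ∃ j, w = z + pos v b j}
    refine le_trans ?_ ((alive_hit v μ ht η U).trans (measure_mono ?_))
    · exact mul_le_mul' le_rfl (measure_mono fun a ⟨i, j, h1, h3⟩ => ⟨i, h1, j, h3⟩)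
    · rintro a ⟨ha, i, j, h3⟩
      exact ⟨⟨i, j, h3⟩, ha⟩
  rw [mul_assoc]
  exact (mul_le_mul' le_rfl s2).trans s1

end Vale.Agent.P147.Semi
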