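import Vale.Agent.P147.Glue.Avoid
import Vale.Agent.P147.Speed.Defs

/-!
P147, a nonzero velocity forces the zero-one law: events used in the counting of cut times.
-/

open MeasureTheory Filter Finset
open scoped ENNReal

namespace Vale.Agent.P147.Semi

open Vale.Agent.P147.Cond Vale.Agent.P147.Dir Vale.Agent.P147.Dir.Blocks Vale.Agent.P147.Glue

variable {d k : ℕ} [NeZero k] (v : Fin k → Site d) (μ : Measure (Row k))

/-- The real height of an integer functional. -/
def lvl (l : Fin d → ℤ) : Site d →+ ℝ := dot fun j => (l j : ℝ)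

/-- The integer height. -/
def lev (l : Fin d → ℤ) (z : Site d) : ℤ := ∑ j, l j * z j

/-- At most `N` sites with height in `[0, M)` are visited by the path started at `x`. -/
def Occ' (l : Fin d → ℤ) (M N : ℕ) (x : Site d) : Set (ℕ → Fin k) :=
  {s | ∀ F : Finset (Site d),
    (∀ z ∈ F, (0 ≤ lev l z ∧ lev l z < M) ∧ ∃ i, x + pos v s i = z) → F.card ≤ N}

/-- The counting class: few sites in a wide and in a narrow band of heights. -/
def Cls (l : Fin d → ℤ) (M₁ N₁ M₂ N₂ : ℕ) (x : Site d) : Set (ℕ → Fin k) :=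
  Occ' v l M₁ N₁ x ∩ Occ' v l M₂ N₂ x

/-- A future for a cut at time `i` of `t`: down for ever, avoiding the past, in the class. -/
def Dn (l : Fin d → ℤ) (M₁ N₁ M₂ N₂ : ℕ) (t : ℕ → Fin k) (i : ℕ) : Set (ℕ → Fin k) :=
  up v (-lvl l) ∩ avoid v (past v i t) ∩ Cls v l M₁ N₁ M₂ N₂ (pos v t i)

/-- The first `n` steps never make staying below and escaping improbable. -/
def Alive (ht : Site d →+ ℝ) (η : ℝ≥0∞) (n : ℕ) (s : ℕ → Fin k) : Prop :=
  ∀ j ≤ n, η * law v μ {t | ∀ i < j, t i = s i} ≤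
    law v μ ({t | ∀ i < j, t i = s i} ∩ StayUp v ht)

/-- Two walks meet at times at which both are alive, the second one started at `z`. -/
def MeetAlive (ht : Site d →+ ℝ) (η : ℝ≥0∞) (z : Site d) : Set ((ℕ → Fin k) × (ℕ → Fin k)) :=
  {x | ∃ i j, Alive v μ ht η i x.1 ∧ Alive v μ ht η j x.2 ∧ pos v x.1 i = z + pos v x.2 j}

/-- Two walks meet, the second one started at `z`. -/
def Meet (z : Site d) : Set ((ℕ → Fin k) × (ℕ → Fin k)) :=
  {x | ∃ i j, pos v x.1 i = z + pos v x.2 j}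

theorem lvl_eq (l : Fin d → ℤ) (z : Site d) : lvl l z = (lev l z : ℝ) := by
  show ∑ j, (l j : ℝ) * (z j : ℝ) = _
  simp [lev]

theorem measurableSet_occ' (l : Fin d → ℤ) (M N : ℕ) (x : Site d) :
    MeasurableSet (Occ' v l M N x) := by
  simp only [Occ', Set.ofPred_forall]
  refine .iInter fun F => ?_
  by_cases hF : F.card ≤ N
  · simp [hF]
  · have e : {s : ℕ → Fin k | (∀ z ∈ F, (0 ≤ lev l z ∧ lev l z < M) ∧ ∃ i, x + pos v s i = z) →
        F.card ≤ N} = (⋂ z ∈ F, {_s | 0 ≤ lev l z ∧ lev l z < M} ∩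
          ⋃ i, {s | pos v s i ∈ {w | x + w = z}})ᶜ := by
      ext s
      simp [hF]
    rw [e]
    exact (MeasurableSet.biInter F.countable_toSet fun z _ => (MeasurableSet.const _).inter
      (.iUnion fun i => measurableSet_pos_mem v i _)).compl

theorem measurableSet_cls (l : Fin d → ℤ) (M₁ N₁ M₂ N₂ : ℕ) (x : Site d) :
    MeasurableSet (Cls v l M₁ N₁ M₂ N₂ x) :=
  (measurableSet_occ' v l M₁ N₁ x).inter (measurableSet_occ' v l M₂ N₂ x)

theorem measurableSet_dn (l : Fin d → ℤ) (M₁ N₁ M₂ N₂ : ℕ) (t : ℕ → Fin k) (i : ℕ) :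
    MeasurableSet (Dn v l M₁ N₁ M₂ N₂ t i) :=
  ((measurableSet_up v (-lvl l)).inter (measurableSet_avoid v _)).inter
    (measurableSet_cls v l M₁ N₁ M₂ N₂ _)

theorem measurableSet_meet (z : Site d) : MeasurableSet (Meet v z) := by
  have e : Meet v z = ⋃ (i : ℕ) (j : ℕ),
      {x : (ℕ → Fin k) × (ℕ → Fin k) | pos v x.1 i = z + pos v x.2 j} := by
    ext x; simp [Meet]
  rw [e]
  exact .iUnion fun i => .iUnion fun j => measurableSet_eq_fun
    ((measurable_pos v i).comp measurable_fst)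
    ((measurable_const (a := z)).add ((measurable_pos v j).comp measurable_snd))

end Vale.Agent.P147.Semi
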