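import Vale.Agent.P147.Semi.Main
import Vale.Agent.P147.Semi.Meet
import Vale.Agent.P147.Semi.Reduce

/-!
P147: in dimension at least six a side visiting few sites per height excludes the opposite
escape, so a nonzero velocity is almost sure and decides every escape event.
-/

open MeasureTheory Filter Finset
open scoped ENNReal

namespace Vale.Agent.P147.Semi

open Vale.Agent.P147.Cond Vale.Agent.P147.Dir Vale.Agent.P147.Speed

variable {d k : ℕ} [NeZero k] (v : Fin k → Site d) (μ : Measure (Row k)) [IsProbabilityMeasure μ]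

theorem no_range (hd : 6 ≤ d) (hell : ∀ i, ∀ᵐ p ∂μ, 0 < (p : Row k).1 i)
    (hunit : ∀ j, (∃ i, v i = Pi.single j 1) ∧ ∃ i, v i = Pi.single j (-1)) : NoRange v μ := by
  intro l hp hm hcard
  have hs := stayUp_ne_zero v μ _ hp
  have hs' := stayUp_ne_zero v μ _ hm
  exact core v μ l hs hs' (exists_meet_bound v μ hd hell hunit l hs hs' hcard)
    (exists_occ_bound v μ l hs' hcard)

theorem velocity_is_sure (hd : 6 ≤ d) (hell : ∀ i, ∀ᵐ p ∂μ, 0 < (p : Row k).1 i)
    (hunit : ∀ j, (∃ i, v i = Pi.single j 1) ∧ ∃ i, v i = Pi.single j (-1))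
    {w : Fin d → ℝ} (hw0 : w ≠ 0) (hw : law v μ (speed v w) ≠ 0) :
    law v μ (speed v w) = 1 ∧ ∀ e : Fin d → ℝ,
      law v μ (Escape v e) = if 0 < ∑ j, e j * w j then 1 else 0 :=
  velocity_forces v μ (no_range v μ hd hell hunit) hell hunit hw0 hw

end Vale.Agent.P147.Semi
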